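import Vale.Agent.P366.H222.K.EqS

/-! The Penrose inequality for Kerr-Schild hypersurfaces, with the area of the boundary. -/

open MeasureTheory Metric Filter Topology Set
open scoped ContDiff ENNReal

noncomputable section
namespace Vale.Agent.P366.KSD

open Vale.Agent.P366 (pd E flux sphI)
open Vale.Agent.P366.H353.N
open Vale.Agent.P366.Kerr (NullCone Psi pt sp indG indK sgn ksL ein con IsKS FutTimelike DECatL
  IsGraph IsSliceL HasDEC IsFut MixDEC IsGradient IsSchwSlice)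
open Vale.Agent.P366.KSN (Y dts sg)
open Vale.Agent.P366.KSL

variable {n : ℕ} {C : NullCone n} {l : Fin (n + 1) → E (n + 1) → ℝ} {V : E (n + 1) → ℝ}
  {f f₁ : E n → ℝ} {D : Stmt.Exterior n} {ξ : Fin (n + 1) → ℝ}

/-- The spacetime dominant energy condition on one hypersurface. -/
theorem st_main [Fact (3 ≤ n)] (hS : IsSliceL C l V f D) (hD : HasDEC C l V f f₁ D)
    (hAF : D.IsAF) (hT : D.Trapped) {m : ℝ} {P : Fin n → ℝ}
    (hm : D.IsEnergy m) (hP : D.IsMomentum P) :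
    (D.Amin ≤ D.area D.F ∧ D.area D.F ≠ ⊤ ∧ √(∑ i, P i ^ 2) < m ∧
      (D.Amin.toReal / Stmt.omega n) ^ (((n : ℝ) - 2) / ((n : ℝ) - 1)) / 2 ≤
        ((D.area D.F).toReal / Stmt.omega n) ^ (((n : ℝ) - 2) / ((n : ℝ) - 1)) / 2 ∧
      ((D.area D.F).toReal / Stmt.omega n) ^ (((n : ℝ) - 2) / ((n : ℝ) - 1)) / 2 ≤
        √(m ^ 2 - ∑ i, P i ^ 2)) ∧
    ∀ lam : E n → ℝ, IsGradient C lam l f D → HasDEC C l V f f D →
      ((D.area D.F).toReal / Stmt.omega n) ^ (((n : ℝ) - 2) / ((n : ℝ) - 1)) / 2 =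
        √(m ^ 2 - ∑ i, P i ^ 2) → ∃ c r₀, IsSchwSlice c r₀ f D := by
  obtain ⟨h1, h2, -, h4, h5⟩ := area_all' hS
  obtain ⟨h6, h7⟩ := mass_M hS hD hAF hT hm hP
  exact ⟨⟨h1, h2, h6, by linarith, h5.trans h7⟩, fun lam hL hD' heq =>
    schwarz_le hS hL hD' hAF hT hm hP (heq ▸ h5)⟩

/-- The Penrose inequality in the frame of `ξ`, and in the rest frame. -/
theorem data_main [Fact (3 ≤ n)] (hS : IsSliceL C l V f D) (hξ : IsFut ξ)
    (hD : MixDEC l V f ξ D) (hAF : D.IsAF) (hT : D.Trapped) {m : ℝ} {P : Fin n → ℝ}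
    (hm : D.IsEnergy m) (hP : D.IsMomentum P) :
    (D.Amin ≤ D.area D.F ∧ D.area D.F ≠ ⊤ ∧
      (D.Amin.toReal / Stmt.omega n) ^ (((n : ℝ) - 2) / ((n : ℝ) - 1)) / 2 ≤
        ((D.area D.F).toReal / Stmt.omega n) ^ (((n : ℝ) - 2) / ((n : ℝ) - 1)) / 2 ∧
      ((D.area D.F).toReal / Stmt.omega n) ^ (((n : ℝ) - 2) / ((n : ℝ) - 1)) / 2 ≤
        (ξ 0 * m + ∑ i : Fin n, ξ i.succ * P i) / √(ξ 0 ^ 2 - ∑ i : Fin n, ξ i.succ ^ 2)) ∧
    ((∀ i, ξ 0 * P i = -(ξ i.succ * m)) → √(∑ i, P i ^ 2) < m ∧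
      ((D.area D.F).toReal / Stmt.omega n) ^ (((n : ℝ) - 2) / ((n : ℝ) - 1)) / 2 ≤
        √(m ^ 2 - ∑ i, P i ^ 2) ∧
      ∀ lam : E n → ℝ, IsGradient C lam l f D →
        ((D.area D.F).toReal / Stmt.omega n) ^ (((n : ℝ) - 2) / ((n : ℝ) - 1)) / 2 =
          √(m ^ 2 - ∑ i, P i ^ 2) → ∃ c r₀, IsSchwSlice c r₀ f D) := by
  obtain ⟨h1, h2, h3, h4, h5⟩ := area_all' hS
  have hpos := posAt_of_mix hS hξ hD
  obtain ⟨-, hp, -⟩ := frame_ineq hS hpos hAF hT hm hP hξ.2 hξ.1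
  have h6 := frame_pos hS hpos hAF hT hm hP
  rw [en_aa hξ.2 hξ.1] at h6
  refine ⟨⟨h1, h2, by linarith, h5.trans h6⟩, fun hr => ?_⟩
  obtain ⟨h7, h8⟩ := rest_frame hξ.2 hξ.1 hr hp
  refine ⟨h7, ?_, fun lam hL heq => schwarz_mix_le hS hL hξ hD hAF hT hm hP hr (heq ▸ h5)⟩
  rw [h8]
  exact h5.trans h6

end Vale.Agent.P366.KSD
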