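import Vale.Agent.P366.H222.K.Frame

/-! The inequality in one frame and in the rest frame. -/

open MeasureTheory Metric Filter Topology Set
open scoped ContDiff ENNReal

noncomputable section
namespace Vale.Agent.P366.KSD

open Vale.Agent.P366 (pd E flux sphI)
open Vale.Agent.P366.H353.N
open Vale.Agent.P366.Kerr (NullCone Psi pt sp indG indK sgn ksL ein IsKS FutTimelike DECatL IsGraph
  IsSliceL HasDEC)
open Vale.Agent.P366.KSN (Y dts sg)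
open Vale.Agent.P366.KSL

variable {n : ℕ} {C : NullCone n} {l : Fin (n + 1) → E (n + 1) → ℝ} {V : E (n + 1) → ℝ}
  {f f₁ : E n → ℝ} {D : Stmt.Exterior n} {p : E (n + 1)} {x y : E n} {ξ : Fin (n + 1) → ℝ}

/-- the Minkowski length -/
def NN (ξ : Fin (n + 1) → ℝ) : ℝ := √(ξ 0 ^ 2 - ∑ i : Fin n, ξ i.succ ^ 2)

/-- the frame of a timelike vector -/
def aa (ξ : Fin (n + 1) → ℝ) (i : Fin n) : ℝ := ξ i.succ / NN ξ

theorem NN_pos (h : ∑ i : Fin n, ξ i.succ ^ 2 < ξ 0 ^ 2) : 0 < NN ξ :=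
  Real.sqrt_pos.2 (by linarith)

theorem NN_sq (h : ∑ i : Fin n, ξ i.succ ^ 2 < ξ 0 ^ 2) :
    NN ξ ^ 2 = ξ 0 ^ 2 - ∑ i : Fin n, ξ i.succ ^ 2 := Real.sq_sqrt (by linarith)

theorem e0_aa (h : ∑ i : Fin n, ξ i.succ ^ 2 < ξ 0 ^ 2) (h0 : 0 < ξ 0) :
    Shell.e0 (aa ξ) = ξ 0 / NN ξ := by
  have hN := NN_pos h
  unfold Shell.e0
  rw [show 1 + ∑ i, aa ξ i ^ 2 = (ξ 0 / NN ξ) ^ 2 by
    have : ∑ i, aa ξ i ^ 2 = (∑ i : Fin n, ξ i.succ ^ 2) / NN ξ ^ 2 := by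
      rw [Finset.sum_div]
      exact Finset.sum_congr rfl fun i _ => by unfold aa; ring
    rw [this, div_pow]
    field_simp
    rw [NN_sq h]
    ring]
  exact Real.sqrt_sq (div_nonneg h0.le hN.le)

theorem xi_aa (h : ∑ i : Fin n, ξ i.succ ^ 2 < ξ 0 ^ 2) (h0 : 0 < ξ 0) (b : Fin (n + 1)) :
    xi (aa ξ) b = ξ b / NN ξ := by
  refine Fin.cases ?_ (fun i => ?_) b
  · exact e0_aa h h0
  · rfl

/-- the area -/
theorem area_all [Fact (3 ≤ n)] (hS : IsSliceL C l V f D) : D.Amin ≠ ⊤ ∧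
    0 < 1 / 2 * (SI C.toDat.dt / om n) ^ (((n : ℝ) - 2) / ((n : ℝ) - 1)) ∧
    (D.Amin.toReal / Stmt.omega n) ^ (((n : ℝ) - 2) / ((n : ℝ) - 1)) / 2 ≤
      1 / 2 * (SI C.toDat.dt / om n) ^ (((n : ℝ) - 2) / ((n : ℝ) - 1)) := by
  have h3 := Fact.out (p := 3 ≤ n)
  have hn : (3 : ℝ) ≤ (n : ℝ) := by exact_mod_cast h3
  have hom : 0 < om n := om_pos
  have hdt : SI C.toDat.dt = SI (fun x => dts C.H (C.U x) x) :=
    SI_congr fun x hx => X3.dt_one C.toDat hx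
  have hA : 0 < SI C.toDat.dt := by
    rw [hdt]
    exact KSN.SI_pos (KSN.dts_cont C (KSN.smU C)) fun x hx => KSN.dts_pos C hx le_rfl
  have h6 := area_le hS
  rw [← hdt] at h6
  have htop : D.Amin ≠ ⊤ := ne_top_of_le_ne_top ENNReal.ofReal_ne_top h6
  have hle : D.Amin.toReal ≤ SI C.toDat.dt := by
    have := (ENNReal.toReal_le_toReal htop ENNReal.ofReal_ne_top).2 h6
    rwa [ENNReal.toReal_ofReal hA.le] at this
  have hmpos : 0 < 1 / 2 * (SI C.toDat.dt / om n) ^ (((n : ℝ) - 2) / ((n : ℝ) - 1)) := by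
    have : 0 < SI C.toDat.dt / om n := div_pos hA hom
    positivity
  refine ⟨htop, hmpos, ?_⟩
  rw [KSN.om_eq]
  have h4 : (D.Amin.toReal / om n) ^ (((n : ℝ) - 2) / ((n : ℝ) - 1)) ≤
      (SI C.toDat.dt / om n) ^ (((n : ℝ) - 2) / ((n : ℝ) - 1)) := by
    refine Real.rpow_le_rpow (div_nonneg ENNReal.toReal_nonneg hom.le) (by gcongr) ?_
    have h5 : 0 < (n : ℝ) - 1 := by linarith
    exact div_nonneg (by linarith) h5.le
  linarith

/-- the energy in the frame of `ξ` -/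
theorem en_aa (h : ∑ i : Fin n, ξ i.succ ^ 2 < ξ 0 ^ 2) (h0 : 0 < ξ 0) (m : ℝ) (P : Fin n → ℝ) :
    Shell.e0 (aa ξ) * m + ∑ i, aa ξ i * P i = (ξ 0 * m + ∑ i, ξ i.succ * P i) / NN ξ := by
  rw [e0_aa h h0, add_div, Finset.sum_div]
  congr 1
  · ring
  · exact Finset.sum_congr rfl fun i _ => by unfold aa; ring

/-- The inequality in the frame of `ξ`. -/
theorem frame_ineq [Fact (3 ≤ n)] (hS : IsSliceL C l V f D) (hD : PosAt C l V f f₁ D (aa ξ))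
    (hAF : D.IsAF) (hT : D.Trapped) {m : ℝ} {P : Fin n → ℝ} (hm : D.IsEnergy m)
    (hP : D.IsMomentum P) (h : ∑ i : Fin n, ξ i.succ ^ 2 < ξ 0 ^ 2) (h0 : 0 < ξ 0) :
    D.Amin ≠ ⊤ ∧ 0 < ξ 0 * m + ∑ i, ξ i.succ * P i ∧
      (D.Amin.toReal / Stmt.omega n) ^ (((n : ℝ) - 2) / ((n : ℝ) - 1)) / 2 ≤
        (ξ 0 * m + ∑ i, ξ i.succ * P i) / NN ξ := by
  obtain ⟨h1, h2, h3⟩ := area_all hS
  have h4 := frame_pos hS hD hAF hT hm hP
  rw [en_aa h h0] at h4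
  have hN := NN_pos h
  refine ⟨h1, ?_, h3.trans h4⟩
  have h5 := h2.trans_le h4
  exact (div_pos_iff_of_pos_right hN).1 h5

/-- the rest frame -/
theorem rest_frame (h : ∑ i : Fin n, ξ i.succ ^ 2 < ξ 0 ^ 2) (h0 : 0 < ξ 0) {m : ℝ}
    {P : Fin n → ℝ} (hr : ∀ i, ξ 0 * P i = - (ξ i.succ * m))
    (hp : 0 < ξ 0 * m + ∑ i, ξ i.succ * P i) :
    √(∑ i, P i ^ 2) < m ∧ √(m ^ 2 - ∑ i, P i ^ 2) = (ξ 0 * m + ∑ i, ξ i.succ * P i) / NN ξ := by
  have hN := NN_pos h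
  have hNs := NN_sq h
  have hP : ∀ i, P i = - (ξ i.succ * m) / ξ 0 := fun i => by
    rw [← hr i]; field_simp
  have e1 : ∑ i, ξ i.succ * P i = - (m * (∑ i : Fin n, ξ i.succ ^ 2)) / ξ 0 := by
    rw [Finset.mul_sum, ← Finset.sum_neg_distrib, Finset.sum_div]
    exact Finset.sum_congr rfl fun i _ => by rw [hP i]; ring
  have e2 : ∑ i, P i ^ 2 = m ^ 2 * (∑ i : Fin n, ξ i.succ ^ 2) / ξ 0 ^ 2 := by
    rw [Finset.mul_sum, Finset.sum_div]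
    exact Finset.sum_congr rfl fun i _ => by rw [hP i]; ring
  have e3 : ξ 0 * m + ∑ i, ξ i.succ * P i = m * NN ξ ^ 2 / ξ 0 := by
    rw [e1, hNs]; field_simp
    ring
  have hm : 0 < m := by
    rw [e3] at hp
    have h1 : 0 < m * NN ξ ^ 2 := by
      rcases lt_trichotomy (m * NN ξ ^ 2) 0 with h | h | h
      · exact absurd hp (not_lt.2 (div_nonpos_of_nonpos_of_nonneg h.le h0.le))
      · rw [h, zero_div] at hp; exact absurd hp (lt_irrefl _)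
      · exact h
    exact pos_of_mul_pos_left h1 (sq_nonneg _)
  have e4 : m ^ 2 - ∑ i, P i ^ 2 = (m * NN ξ / ξ 0) ^ 2 := by
    rw [e2, div_pow, mul_pow, hNs]; field_simp
  constructor
  · rw [Real.sqrt_lt' hm]
    have : 0 < (m * NN ξ / ξ 0) ^ 2 := by positivity
    linarith
  · rw [e4, Real.sqrt_sq (by positivity), e3]
    field_simp

end Vale.Agent.P366.KSD
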