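import Vale.Agent.P366.H222.K.Rest
import Vale.Agent.P366.H296.L.V9

/-! Causal vectors along the slice, and the flux density. -/

open MeasureTheory Metric Filter Topology Set
open scoped ContDiff ENNReal

noncomputable section
namespace Vale.Agent.P366.KSD

open Vale.Agent.P366 (pd E flux sphI)
open Vale.Agent.P366.H353.N
open Vale.Agent.P366.Kerr (NullCone Psi pt sp indG indK sgn ksL ein con IsKS FutTimelike DECatL
  IsGraph IsSliceL HasDEC)
open Vale.Agent.P366.KSN (Y dts sg)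
open Vale.Agent.P366.KSL
open Vale.Agent.P366.H707.N (KM det_alg)

variable {n : ℕ} {C : NullCone n} {l : Fin (n + 1) → E (n + 1) → ℝ} {V : E (n + 1) → ℝ}
  {f f₁ : E n → ℝ} {D : Stmt.Exterior n} {p : E (n + 1)} {x y : E n} {ξ : Fin (n + 1) → ℝ}

theorem mat_all (hS : IsSliceL C l V f D) (hy : 0 ≤ D.F y) :
    Stmt.mat D.g y = KM (fun i => l i.succ (pt (f y) y) / l 0 (pt (f y) y)) (fun i => pd i f y)
      (V (pt (f y) y) * l 0 (pt (f y) y) ^ 2) := by
  have h0 := (hS.ks y hy).fut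
  have hfd : DifferentiableAt ℝ f y := (hS.smf _ hy).differentiableAt (by simp)
  ext i j
  rw [KM, Matrix.of_apply]
  show D.g y i j = _
  rw [hS.met _ hy i j, indG_ksL, Vale.Agent.P366.Bridge.pd_eq hfd,
    Vale.Agent.P366.Bridge.pd_eq hfd]
  field_simp

/-- the square of the lapse -/
theorem lap2_pos (hS : IsSliceL C l V f D) (hy : 0 ≤ D.F y) :
    0 < 1 - ∑ i, pd i f y ^ 2 + V (pt (f y) y) *
      (l 0 (pt (f y) y) + ∑ i : Fin n, l i.succ (pt (f y) y) * pd i f y) ^ 2 := by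
  have h0 := (hS.ks y hy).fut
  have h := (D.pos _ hy).det_pos
  have hx2 : ∑ i : Fin n, (l i.succ (pt (f y) y) / l 0 (pt (f y) y)) ^ 2 = 1 := by
    have h1 := null_at (hS.ks y hy)
    have : ∑ i : Fin n, (l i.succ (pt (f y) y) / l 0 (pt (f y) y)) ^ 2 =
        (∑ i : Fin n, l i.succ (pt (f y) y) ^ 2) / l 0 (pt (f y) y) ^ 2 := by
      rw [Finset.sum_div]
      exact Finset.sum_congr rfl fun i _ => by ring
    rw [this, h1, div_self (by positivity)]
  rw [mat_all hS hy, det_alg hx2] at h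
  have e : l 0 (pt (f y) y) + ∑ i : Fin n, l i.succ (pt (f y) y) * pd i f y =
      l 0 (pt (f y) y) * (1 + ∑ i, l i.succ (pt (f y) y) / l 0 (pt (f y) y) * pd i f y) := by
    rw [mul_add, mul_one, Finset.mul_sum]
    congr 1
    exact Finset.sum_congr rfl fun i _ => by field_simp
  rw [e]
  have e2 : V (pt (f y) y) * (l 0 (pt (f y) y) *
      (1 + ∑ i, l i.succ (pt (f y) y) / l 0 (pt (f y) y) * pd i f y)) ^ 2 =
      V (pt (f y) y) * l 0 (pt (f y) y) ^ 2 *
      (1 + ∑ i, l i.succ (pt (f y) y) / l 0 (pt (f y) y) * pd i f y) ^ 2 := by ring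
  rw [e2]
  exact h

section Alg

variable {L X : Fin (n + 1) → ℝ} {v : ℝ} {u : Fin n → ℝ}

/-- a causal vector with `l(X) > 0` is future directed -/
theorem zero_pos (hn : ∑ i : Fin n, L i.succ ^ 2 = L 0 ^ 2) (h0 : 0 < L 0)
    (hX : ∑ i : Fin n, X i.succ ^ 2 ≤ X 0 ^ 2) (hl : 0 < ∑ a, L a * X a) : 0 < X 0 := by
  by_contra hneg
  push Not at hneg
  rw [Fin.sum_univ_succ] at hl
  have h1 := Finset.sum_mul_sq_le_sq_mul_sq Finset.univ (fun i : Fin n => L i.succ)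
    (fun i => X i.succ)
  rw [hn] at h1
  have h2 : (∑ i : Fin n, L i.succ * X i.succ) ^ 2 ≤ (L 0 * X 0) ^ 2 := by
    calc _ ≤ L 0 ^ 2 * ∑ i : Fin n, X i.succ ^ 2 := h1
      _ ≤ L 0 ^ 2 * X 0 ^ 2 := mul_le_mul_of_nonneg_left hX (sq_nonneg _)
      _ = _ := by ring
  have h3 : L 0 * X 0 ≤ 0 := mul_nonpos_of_nonneg_of_nonpos h0.le hneg
  have h4 : (L 0 * X 0) ^ 2 = (-(L 0 * X 0)) ^ 2 := by ring
  rw [h4] at h2
  have h5 := (abs_le_of_sq_le_sq' h2 (by linarith)).2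
  linarith

/-- The covector `dt - df` is positive on the future causal vectors of the Kerr-Schild metric. -/
theorem con_pos (hn : ∑ i : Fin n, L i.succ ^ 2 = L 0 ^ 2) (h0 : 0 < L 0)
    (hlap : 0 < 1 - ∑ i, u i ^ 2 + v * (L 0 + ∑ i, L i.succ * u i) ^ 2)
    (hτ : 0 < L 0 + ∑ i, L i.succ * u i)
    (hX : -X 0 ^ 2 + ∑ i : Fin n, X i.succ ^ 2 + v * (∑ a, L a * X a) ^ 2 ≤ 0)
    (hl : 0 < ∑ a, L a * X a) : 0 < X 0 - ∑ i, u i * X i.succ := by
  set τ := L 0 + ∑ i, L i.succ * u i with hτd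
  set s := ∑ a, L a * X a with hs
  have hs' : s = L 0 * X 0 + ∑ i : Fin n, L i.succ * X i.succ := by rw [hs, Fin.sum_univ_succ]
  -- the images under the isometry
  set Y : Fin (n + 1) → ℝ := Fin.cons (X 0 - v / 2 * s * L 0)
    (fun i => X i.succ + v / 2 * s * L i.succ) with hY
  set N : Fin (n + 1) → ℝ := Fin.cons (1 + v / 2 * τ * L 0)
    (fun i => u i - v / 2 * τ * L i.succ) with hN
  have Y0 : Y 0 = X 0 - v / 2 * s * L 0 := rfl
  have Ys : ∀ i : Fin n, Y i.succ = X i.succ + v / 2 * s * L i.succ := fun i => rfl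
  have N0 : N 0 = 1 + v / 2 * τ * L 0 := rfl
  have Ns : ∀ i : Fin n, N i.succ = u i - v / 2 * τ * L i.succ := fun i => rfl
  have sLX : ∑ i : Fin n, L i.succ * X i.succ = s - L 0 * X 0 := by rw [hs']; ring
  have sLu : ∑ i : Fin n, L i.succ * u i = τ - L 0 := by rw [hτd]; ring
  have hYq : ∑ i : Fin n, Y i.succ ^ 2 ≤ Y 0 ^ 2 := by
    have e : ∀ i : Fin n, Y i.succ ^ 2 = X i.succ ^ 2 + v * s * (L i.succ * X i.succ) +
        (v / 2 * s) ^ 2 * L i.succ ^ 2 := fun i => by rw [Ys]; ring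
    simp only [e, Finset.sum_add_distrib, ← Finset.mul_sum, hn, sLX, Y0]
    nlinarith [hX]
  have hNq : ∑ i : Fin n, N i.succ ^ 2 < N 0 ^ 2 := by
    have e : ∀ i : Fin n, N i.succ ^ 2 = u i ^ 2 - v * τ * (L i.succ * u i) +
        (v / 2 * τ) ^ 2 * L i.succ ^ 2 := fun i => by rw [Ns]; ring
    simp only [e, Finset.sum_add_distrib, Finset.sum_sub_distrib, ← Finset.mul_sum, hn, sLu, N0]
    nlinarith [hlap]
  have hlY : ∑ a, L a * Y a = s := by
    rw [Fin.sum_univ_succ]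
    have e : ∀ i : Fin n, L i.succ * Y i.succ = L i.succ * X i.succ +
        v / 2 * s * L i.succ ^ 2 := fun i => by rw [Ys]; ring
    simp only [e, Finset.sum_add_distrib, ← Finset.mul_sum, hn, sLX, Y0]
    ring
  have hlN : ∑ a, L a * N a = τ := by
    rw [Fin.sum_univ_succ]
    have e : ∀ i : Fin n, L i.succ * N i.succ = L i.succ * u i -
        v / 2 * τ * L i.succ ^ 2 := fun i => by rw [Ns]; ring
    simp only [e, Finset.sum_sub_distrib, ← Finset.mul_sum, hn, sLu, N0]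
    ring
  have hY0 := zero_pos hn h0 hYq (by rw [hlY]; exact hl)
  have hN0 := zero_pos hn h0 hNq.le (by rw [hlN]; exact hτ)
  have key : X 0 - ∑ i, u i * X i.succ = N 0 * Y 0 - ∑ i : Fin n, N i.succ * Y i.succ := by
    have e : ∀ i : Fin n, N i.succ * Y i.succ = u i * X i.succ + v / 2 * s * (L i.succ * u i) -
        v / 2 * τ * (L i.succ * X i.succ) - v / 2 * τ * (v / 2 * s) * L i.succ ^ 2 :=
      fun i => by rw [Ns, Ys]; ring
    simp only [e, Finset.sum_add_distrib, Finset.sum_sub_distrib, ← Finset.mul_sum, hn, sLX, sLu,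
      N0, Y0]
    ring
  rw [key]
  have h1 := Finset.sum_mul_sq_le_sq_mul_sq Finset.univ (fun i : Fin n => N i.succ)
    (fun i => Y i.succ)
  have h2 : (∑ i : Fin n, N i.succ * Y i.succ) ^ 2 < (N 0 * Y 0) ^ 2 := by
    have h3 : (∑ i : Fin n, N i.succ ^ 2) * ∑ i : Fin n, Y i.succ ^ 2 ≤
        (∑ i : Fin n, N i.succ ^ 2) * Y 0 ^ 2 :=
      mul_le_mul_of_nonneg_left hYq (Finset.sum_nonneg fun i _ => sq_nonneg _)
    have h4 : (∑ i : Fin n, N i.succ ^ 2) * Y 0 ^ 2 < N 0 ^ 2 * Y 0 ^ 2 :=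
      mul_lt_mul_of_pos_right hNq (by positivity)
    calc _ ≤ _ := h1
      _ ≤ _ := h3
      _ < _ := h4
      _ = _ := by ring
  have h5 := abs_lt_of_sq_lt_sq h2 (mul_pos hN0 hY0).le
  have h6 := (abs_lt.1 h5).2
  linarith

/-- a linear form which is nonnegative on an open cone and vanishes in it is zero -/
theorem form_zero' {q : (Fin (n + 1) → ℝ) → ℝ} {w L' : Fin (n + 1) → ℝ}
    (hq : Continuous q) (hξ : q ξ < 0) (hc : 0 < ∑ b, L' b * ξ b)
    (h : ∀ Y, q Y < 0 → 0 < ∑ b, L' b * Y b → 0 ≤ ∑ b, w b * Y b) (h0 : ∑ b, w b * ξ b = 0)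
    (b : Fin (n + 1)) : w b = 0 := by
  have hcont : ∀ Z : Fin (n + 1) → ℝ, Continuous fun t : ℝ => ξ + t • Z := fun Z => by fun_prop
  have key : ∀ Z : Fin (n + 1) → ℝ, 0 ≤ ∑ b, w b * Z b := by
    intro Z
    have e1 : ∀ᶠ t in 𝓝 (0 : ℝ), q (ξ + t • Z) < 0 := by
      have hc1 : ContinuousAt (fun t : ℝ => q (ξ + t • Z)) 0 :=
        (hq.comp (hcont Z)).continuousAt
      refine hc1.eventually (gt_mem_nhds ?_)
      simpa using hξ
    have e2 : ∀ᶠ t in 𝓝 (0 : ℝ), 0 < ∑ b, L' b * (ξ + t • Z) b := by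
      have hc2 : ContinuousAt (fun t : ℝ => ∑ b, L' b * (ξ + t • Z) b) 0 := by
        refine Continuous.continuousAt ?_
        simp only [Pi.add_apply, Pi.smul_apply]
        fun_prop
      refine hc2.eventually (lt_mem_nhds ?_)
      simpa using hc
    have e3 : ∀ᶠ t in 𝓝[>] (0 : ℝ), 0 ≤ t * ∑ b, w b * Z b := by
      filter_upwards [nhdsWithin_le_nhds e1, nhdsWithin_le_nhds e2] with t h1 h2
      have h3 := h _ h1 h2
      have h4 : ∑ b, w b * (ξ + t • Z) b = ∑ b, w b * ξ b + t * ∑ b, w b * Z b := by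
        rw [Finset.mul_sum, ← Finset.sum_add_distrib]
        exact Finset.sum_congr rfl fun b _ => by simp; ring
      rw [h4, h0, zero_add] at h3
      exact h3
    obtain ⟨t, ht, ht0⟩ := (e3.and self_mem_nhdsWithin).exists
    exact nonneg_of_mul_nonneg_right ht (by exact ht0)
  have h1 := key (Pi.single b 1)
  have h2 := key (-Pi.single b 1)
  simp [Pi.single_apply] at h1 h2
  linarith

end Alg

end Vale.Agent.P366.KSD
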