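import Vale.Agent.P366.H375.W.W6
import Vale.Agent.P366.H222.K.Cau

/-! The null expansion of the boundary of a Kerr-Schild exterior: the exact formula. -/

open MeasureTheory Metric Filter Topology Set
open scoped ContDiff ENNReal

noncomputable section
namespace Vale.Agent.P366.KSN.W

open Vale.Agent.P366 (pd E)
open Vale.Agent.P366.H353.N
open Vale.Agent.P366.H353.N.X3
open Vale.Agent.P366.H375 (dl HP)
open Vale.Agent.P366.Kerr (NullCone Psi pt sp indG indK ksL IsKS IsGraph IsSliceL lapse)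
open Vale.Agent.P366.KSL (bd_Y tau_pos_bdr)

variable {n : ℕ} {C : NullCone n} {l : Fin (n + 1) → E (n + 1) → ℝ} {V : E (n + 1) → ℝ}
  {f : E n → ℝ} {D : Stmt.Exterior n} {T : Ten n} {x y z : E n}

/-- The expansion of the boundary. -/
theorem theta_exact [Fact (3 ≤ n)] (hS : IsSliceL C l V f D)
    (B : BdN C.H C.U T (fun x => dts C.H (C.U x) x) f) (hx : ‖x‖ = 1) :
    Stmt.thetaPlus D.g D.K D.F (zz C.H C.U x) =
    lapse (ksL l V) f (zz C.H C.U x) * tt C.H C.U f x *
    ((1 - ∑ i, X3.Fv C.H C.U f i x ^ 2) / tt C.H C.U f x ^ 2 *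
        (∑ i, LL T (fun x => dts C.H (C.U x) x) x i i) + 2 / tt C.H C.U f x *
      ((∑ i, ∑ j, hs f i j (zz C.H C.U x) * pr x i j) +
        2 * (∑ i, ∑ j, hs f i j (zz C.H C.U x) * bb C.H C.U f i x * x j) +
        (∑ i, bb C.H C.U f i x ^ 2) * ∑ i, ∑ j, hs f i j (zz C.H C.U x) * x i * x j) -
    V (pt (- C.U x) (Y C.H x (C.U x))) * l 0 (pt (- C.U x) (Y C.H x (C.U x))) ^ 2 *
      (∑ i, LL T (fun x => dts C.H (C.U x) x) x i i)) := by
  have hx0 := ne_zero_of_one hx
  have hzY := zz_Y C hx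
  have hfb : f (zz C.H C.U x) = - C.U x := B.bd' hx0
  have hFz : ∀ z, z ≠ 0 → D.F (zz C.H C.U z) = 0 := fun z hz => zF hS B hz
  have hFc : ∀ z, z ≠ 0 → ContDiffAt ℝ ∞ D.F (zz C.H C.U z) := fun z _ => D.dom.1.contDiffAt
  have hpl := fun {X Z : Fin n → ℝ} => Nl_plane hS B hx (X := X) (Z := Z)
  have hlx : ∀ i : Fin n, l i.succ (pt (f (zz C.H C.U x)) (zz C.H C.U x)) =
      l 0 (pt (f (zz C.H C.U x)) (zz C.H C.U x)) * x i := fun i => by
    rw [zl hS B hx0 i, nv_one hx]
  have hgr := fun i => grad_F B hFz hFc hx i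
  have hhs := fun {X : Fin n → ℝ} => hess_F B hFz hFc hx (X := X)
  have htt : tt C.H C.U f x = 1 + ∑ i, x i * pd i f (zz C.H C.U x) := by
    unfold tt X3.Fv
    simp only [nv_one hx]
  have hFpos : 0 < ∑ j, x j * pd j D.F (zz C.H C.U x) := by
    rw [hzY]
    refine KSL.bdr_dF_pos hS.dom hS.bdF hS.bdr ?_ ?_ hx
    · exact (hS.smf _ (KSL.mem_Y hS.dom hx le_rfl)).differentiableAt (by simp)
    · exact (tau_pos_bdr hS hx).ne'
  have hdet := KSL.det_bdr hS hx
  have htp := B.tt_pos hx0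
  rw [← hfb, ← hzY] at hdet ⊢
  have hFvd : ∀ i, X3.Fv C.H C.U f i x = pd i f (zz C.H C.U x) := fun i => rfl
  obtain ⟨L, hL⟩ : ∃ L, L = LL T (fun x => dts C.H (C.U x) x) x := ⟨_, rfl⟩
  have hLs : ∀ i j, L i j = L j i := fun i j => by rw [hL]; exact LL_symm i j
  have hLx : ∀ i, ∑ j, L i j * x j = 0 := fun i => by rw [hL]; exact LL_x hx i
  rw [← hL]
  simp only [← hL] at hpl hhs
  have hbbd : ∀ i, bb C.H C.U f i x =
      - (pd i f (zz C.H C.U x) - (tt C.H C.U f x - 1) * x i) / tt C.H C.U f x := fun i => by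
    unfold bb
    rw [nv_one hx, hFvd]
  have hm : 0 ≤ D.F (zz C.H C.U x) := zmem hS B hx0
  have hF0 : D.F (zz C.H C.U x) = 0 := hFz x hx0
  have hAv : ∀ i, Av C.H C.U f x i = pd i f (zz C.H C.U x) + x i := fun i => rfl
  simp only [hAv] at hpl hhs hgr
  generalize zz C.H C.U x = y at *
  obtain ⟨τ, hτ⟩ : ∃ τ, τ = tt C.H C.U f x := ⟨_, rfl⟩
  rw [← hτ] at htt htp ⊢
  simp only [← hτ] at hhs hgr hbbd
  have hf := hS.smf y hm
  have hK := hS.ks y hm
  have hfp : ∀ i, Stmt.pd i f y = pd i f y := fun i => X2.stmt_pd' hf i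
  have hfpp : ∀ i j, Stmt.pd i (Stmt.pd j f) y = hs f i j y := fun i j => X2.stmt_pd2 hf i j
  have hFp : ∀ i, Stmt.pd i D.F y = pd i D.F y := fun i =>
    X2.stmt_pd' (D.dom.1.contDiffAt (x := y)) i
  have hFpp : ∀ i j, Stmt.pd i (Stmt.pd j D.F) y = hs D.F i j y := fun i j =>
    X2.stmt_pd2 (D.dom.1.contDiffAt (x := y)) i j
  have hxx := sum_xx hx
  -- the point data
  obtain ⟨v, hv⟩ : ∃ v, v = V (pt (f y) y) * l 0 (pt (f y) y) ^ 2 := ⟨_, rfl⟩
  rw [← hv] at hdet ⊢
  have hco : ∑ i, Stmt.pd i f y * x i = τ - 1 := by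
    rw [htt]
    have : ∑ i, Stmt.pd i f y * x i = ∑ i, x i * pd i f y :=
      Finset.sum_congr rfl fun i _ => by rw [hfp]; ring
    rw [this]; ring
  have hfsq : ∑ i, Stmt.pd i f y * Stmt.pd i f y = ∑ i, pd i f y ^ 2 :=
    Finset.sum_congr rfl fun i _ => by rw [hfp]; ring
  rw [← htt] at hdet
  obtain ⟨p, pf, pu, pv, pS, pc, ps⟩ : ∃ p : H375.Pt n, p.f = (fun i => Stmt.pd i f y) ∧
      p.u = (fun i => x i) ∧ p.v = v ∧ p.S = τ ∧ p.c = 1 - ∑ i, pd i f y ^ 2 ∧
      p.s = √(1 - ∑ i, pd i f y ^ 2 + v * τ ^ 2) :=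
    ⟨{ f := fun i => Stmt.pd i f y
       u := fun i => x i
       v := v
       S := τ
       c := 1 - ∑ i, pd i f y ^ 2
       s := √(1 - ∑ i, pd i f y ^ 2 + v * τ ^ 2)
       uu := hxx
       fu := hco
       ff := by rw [hfsq]; ring
       hs := Real.sq_sqrt hdet.le
       s0 := Real.sqrt_pos.2 hdet
       S0 := htp }, rfl, rfl, rfl, rfl, rfl, rfl⟩
  have pF : ∀ i, p.F i = pd i f y + x i := fun i => by
    unfold H375.Pt.F
    rw [pf, pu]
    show Stmt.pd i f y + x i = _
    rw [hfp]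
  have hax : ∑ i, p.F i * x i = τ := by
    simp only [pF, add_mul, Finset.sum_add_distrib, hxx, htt]
    rw [add_comm]
    congr 1
    exact Finset.sum_congr rfl fun i _ => mul_comm _ _
  -- the defining function
  obtain ⟨r, hr⟩ : ∃ r, r = (∑ j, x j * pd j D.F y) / τ := ⟨_, rfl⟩
  have hr0 : 0 < r := by rw [hr]; exact div_pos hFpos htp
  have hrτ : ∑ j, x j * pd j D.F y = r * τ := by rw [hr]; field_simp
  have h1F : ∀ i, Stmt.pd i D.F y = r * p.F i := by
    intro i
    have h := hgr i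
    rw [hrτ] at h
    rw [hFp, pF]
    have h2 : (pd i D.F y - r * (pd i f y + x i)) * τ = 0 := by linear_combination h
    have h3 := (mul_eq_zero.1 h2).resolve_right htp.ne'
    linarith
  obtain ⟨b, hb⟩ := H375.sym_plane
    (M := fun i j => Stmt.pd i (Stmt.pd j D.F) y - r * (Stmt.pd i (Stmt.pd j f) y + L i j))
    (fun i j => by
      rw [H375.pd_symm (D.dom.1.contDiffAt (x := y)) i j, H375.pd_symm hf i j, hLs i j])
    (F := p.F) (Z := fun i => x i / τ) (by
      have : ∑ i, p.F i * (x i / τ) = (∑ i, p.F i * x i) / τ := by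
        rw [Finset.sum_div]
        exact Finset.sum_congr rfl fun i _ => by ring
      rw [this, hax, div_self htp.ne'])
    (by
      intro X hX
      simp only [pF] at hX
      have h := hhs hX
      rw [hrτ] at h
      have e : ∑ i, ∑ j, (Stmt.pd i (Stmt.pd j D.F) y -
          r * (Stmt.pd i (Stmt.pd j f) y + L i j)) * X i * X j =
          (∑ i, ∑ j, hs D.F i j y * X i * X j) -
            r * ((∑ i, ∑ j, hs f i j y * X i * X j) + ∑ i, ∑ j, L i j * X i * X j) := by
        simp only [hFpp, hfpp]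
        rw [← Finset.sum_add_distrib, Finset.mul_sum, ← Finset.sum_sub_distrib]
        refine Finset.sum_congr rfl fun i _ => ?_
        rw [← Finset.sum_add_distrib, Finset.mul_sum, ← Finset.sum_sub_distrib]
        exact Finset.sum_congr rfl fun j _ => by ring
      rw [e]
      have h2 : τ * ((∑ i, ∑ j, hs D.F i j y * X i * X j) -
            r * ((∑ i, ∑ j, hs f i j y * X i * X j) + ∑ i, ∑ j, L i j * X i * X j)) = 0 := by
        linear_combination h
      exact (mul_eq_zero.1 h2).resolve_left htp.ne')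
  -- the derivative of `l`
  obtain ⟨k0, hk0⟩ : ∃ k0, k0 = l 0 (pt (f y) y) := ⟨_, rfl⟩
  rw [← hk0] at hv hlx
  simp only [← hk0] at hpl
  obtain ⟨γ, δ, hN⟩ := bil_plane (N := fun i j => Nl l f y i j - k0 * L i j) (a := p.F)
    (z := fun i => x i) htp.ne' hax (by
      intro X Z hX hZ
      simp only [pF] at hX hZ
      have h := hpl hX hZ
      have e : ∑ i, ∑ j, (Nl l f y i j - k0 * L i j) * X i * Z j =
          (∑ i, ∑ j, Nl l f y i j * X i * Z j) - k0 * ∑ i, ∑ j, L i j * X i * Z j := by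
        rw [Finset.mul_sum, ← Finset.sum_sub_distrib]
        refine Finset.sum_congr rfl fun i _ => ?_
        rw [Finset.mul_sum, ← Finset.sum_sub_distrib]
        exact Finset.sum_congr rfl fun j _ => by ring
      rw [e, h]
      ring)
  have hNl : ∀ i j, Nl l f y i j = k0 * L i j + p.F i * γ j + δ i * p.F j := fun i j => by
    have := hN i j
    linarith
  have hLi : ∀ i, Li l f y i = k0 * p.F i := fun i => by
    unfold Li
    rw [hlx, pF, ← hk0, hfp]
    ring
  -- the jet of the metric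
  have hJ : H375.JetW (clL l V f) D.F f L y p r b
      (fun k => dsl V f y k * k0 ^ 2 + 2 * V (pt (f y) y) * k0 * δ k)
      (fun i => V (pt (f y) y) * k0 * γ i) :=
    { cf := hf
      Ls := hLs
      r0 := hr0
      pF := h1F
      pFF := fun i j => by
        have := hb i j
        linarith
      eik := fun i => by rw [pu]; exact hLx i
      gx := fun i j => by
        unfold clL H375.Pt.G
        rw [hLi, hLi, pv, hv, pf]
        ring
      pg := fun k i j => by
        rw [pd_clL hf hK, hLi, hLi, hNl, hNl, pv, hv, pf, ← hk0]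
        ring }
  -- the expansion
  have hθ : Stmt.thetaPlus D.g D.K D.F y = Stmt.thetaPlus (clL l V f) D.K D.F y := by
    refine H375.thetaPlus_congr (g := D.g) (K := D.K) (K' := D.K) ?_ ?_ ?_
    · intro i j
      rw [hS.met y hm i j, indG_cl]
    · intro i j
      rfl
    · intro i j k
      refine H375.pd_eq_of_eqOn D.dom.1 D.dom.2.1 (fun z hz => ?_) hm
        (((D.smooth i j).1.contDiffAt).differentiableAt (by simp))
        ((cd_clL hf hK i j).differentiableAt (by simp)) k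
      rw [hS.met z hz i j, indG_cl]
  -- the second fundamental form
  have hnull : ∑ a, X1.sgn a * (l a (pt (f y) y) * l a (pt (f y) y)) = 0 := by
    rw [← hK.null.self_of_nhds]
    refine Finset.sum_congr rfl fun a _ => ?_
    unfold X1.sgn Kerr.sgn
    ring
  have hG : ∀ q : E (n + 1), ∀ a b, ksL l V q a b = (if a = b then X1.sgn a else 0) +
      V q * (l a q * l b q) := fun q a b => by
    unfold ksL X1.sgn Kerr.sgn
    ring
  have hSl : Sl l f y = k0 * τ := by
    unfold Sl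
    simp only [hlx]
    rw [← hk0, htt, mul_add, mul_one, Finset.mul_sum]
    congr 1
    exact Finset.sum_congr rfl fun i _ => by rw [hfp]; ring
  have hlapse : lapse (ksL l V) f y = 1 / p.s := by
    rw [lapse_l (hG _) hnull, hSl, hfsq, ps, hv]
    congr 3
    ring
  have hs0 := p.s0
  have hKq : ∀ X : Fin n → ℝ, ∑ i, p.F i * X i = 0 → ∑ i, ∑ j, (p.s * D.K y i j -
      Stmt.pd i (Stmt.pd j f) y + p.v * p.S * L i j) * X i * X j = 0 := by
    intro X hX
    have h0 : ∑ i, Li l f y i * X i = 0 := by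
      simp only [hLi, mul_assoc, ← Finset.mul_sum, hX, mul_zero]
    have h := indK_l (G := ksL l V) (hK.smV.differentiableAt (by simp))
      (fun a => (hK.sml a).differentiableAt (by simp)) (Eventually.of_forall hG) hnull h0
    have h2 : ∑ i, ∑ j, D.K y i j * X i * X j =
        ∑ i, ∑ j, indK (ksL l V) f y i j * X i * X j :=
      Finset.sum_congr rfl fun i _ => Finset.sum_congr rfl fun j _ => by rw [hS.sff y hm i j]
    simp only [pF] at hX
    rw [hpl hX hX, hlapse, hSl, ← h2] at h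
    have e : ∑ i, ∑ j, (p.s * D.K y i j - Stmt.pd i (Stmt.pd j f) y + p.v * p.S * L i j) *
        X i * X j = p.s * (∑ i, ∑ j, D.K y i j * X i * X j) -
        (∑ i, ∑ j, Stmt.pd i (Stmt.pd j f) y * X i * X j) +
        p.v * p.S * ∑ i, ∑ j, L i j * X i * X j := by
      rw [Finset.mul_sum, Finset.mul_sum, ← Finset.sum_sub_distrib, ← Finset.sum_add_distrib]
      refine Finset.sum_congr rfl fun i _ => ?_
      rw [Finset.mul_sum, Finset.mul_sum, ← Finset.sum_sub_distrib, ← Finset.sum_add_distrib]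
      exact Finset.sum_congr rfl fun j _ => by ring
    rw [e, h, pv, pS, hv]
    field_simp
    ring
  obtain ⟨b', hb'⟩ := H375.sym_plane
    (M := fun i j => p.s * D.K y i j - Stmt.pd i (Stmt.pd j f) y + p.v * p.S * L i j)
    (fun i j => by rw [(D.symm y i j).2, H375.pd_symm hf i j, hLs i j])
    (F := p.F) (Z := fun i => x i / τ) (by
      have : ∑ i, p.F i * (x i / τ) = (∑ i, p.F i * x i) / τ := by
        rw [Finset.sum_div]
        exact Finset.sum_congr rfl fun i _ => by ring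
      rw [this, hax, div_self htp.ne']) hKq
  have hKf : ∀ i j, D.K y i j = (Stmt.pd i (Stmt.pd j f) y - p.v * p.S * L i j +
      (b' i * p.F j + p.F i * b' j)) / p.s := by
    intro i j
    rw [eq_div_iff hs0.ne']
    have := hb' i j
    linarith
  have hth := hJ.theta hKf
  have hS0 := p.S0
  have hct : p.ct (fun i j => Stmt.pd i (Stmt.pd j f) y) =
      (∑ i, ∑ j, hs f i j y * pr x i j) +
        2 * (∑ i, ∑ j, hs f i j y * bb C.H C.U f i x * x j) +
        (∑ i, bb C.H C.U f i x ^ 2) * ∑ i, ∑ j, hs f i j y * x i * x j := by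
    have h2 := X2.thl_alg (A := fun i j => Stmt.pd i (Stmt.pd j f) y) (f := p.f)
      (u := p.u) (S := p.S) (c := p.c)
      (fun i j => H375.pd_symm hf i j) p.fu p.uu p.ff hS0.ne'
    unfold H375.Pt.ct
    refine Eq.trans h2.symm ?_
    have e6 : ∀ i, (-(p.f i - (p.S - 1) * p.u i) / p.S) = bb C.H C.U f i x := by
      intro i
      rw [hbbd, pf, pS, pu]
      show -(Stmt.pd i f y - (τ - 1) * x i) / τ = _
      rw [hfp]
    simp only [e6]
    simp only [hfpp, pu]
  rw [hθ, hth, hct, pc, pS, pv, hlapse]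
  simp only [hFvd]
  ring

end Vale.Agent.P366.KSN.W

namespace Vale.Agent.P366.KSL

open Vale.Agent.P366 (pd E)
open Vale.Agent.P366.H353.N
open Vale.Agent.P366.H353.N.X3
open Vale.Agent.P366.Kerr (NullCone Psi pt sp indG indK ksL IsKS IsGraph IsSliceL lapse)
open Vale.Agent.P366.KSN (Y dts sg dts_pos)
open Vale.Agent.P366.KSN.W (mkB zz_Y LL)

variable {n : ℕ} {C : NullCone n} {l : Fin (n + 1) → E (n + 1) → ℝ} {V : E (n + 1) → ℝ}
  {f : E n → ℝ} {D : Stmt.Exterior n} {x : E n}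

/-- The exact formula for the expansion at the boundary surface. -/
theorem theta_Y [Fact (3 ≤ n)] (hS : IsSliceL C l V f D) {T : Ten n}
    (hA : T.A = C.toDat.A) (hb : T.b = C.toDat.b) (hx : ‖x‖ = 1) :
    Stmt.thetaPlus D.g D.K D.F (Y C.H x (C.U x)) * dts C.H (C.U x) x =
    lapse (ksL l V) f (Y C.H x (C.U x)) * (1 + ∑ i, x i * pd i f (Y C.H x (C.U x))) *
    (KSL.qT T x - KSL.wS C l V x) := by
  have hx0 := ne_zero_of_one hx
  have B := mkB hS hA hb
  have hd := dts_pos C hx (le_refl (C.U x))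
  have htr : H353.N.tr (T.A x) = sg C.H (C.U x) x := by
    rw [hA]
    exact tr_A C.toDat hx
  obtain ⟨Λ, hΛ⟩ : ∃ Λ, Λ = ∑ i, LL T (fun x => dts C.H (C.U x) x) x i i := ⟨_, rfl⟩
  have hΛd : Λ * dts C.H (C.U x) x = H353.N.tr (T.A x) := by
    rw [hΛ]
    unfold LL H353.N.tr
    rw [← Finset.sum_div, div_mul_cancel₀ _ hd.ne']
  have h1 := KSN.W.theta_exact hS B hx
  rw [← hΛ, zz_Y C hx] at h1
  have h2 := B.theta (Λ := Λ) hx hΛd
  have hbb : ∀ z : E n, z ≠ 0 → ∀ i, X3.bb C.H C.U f i z = T.b z i := by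
    intro z hz i
    have hu := unit_of hz
    have h := B.bb_eq hu i
    have hr := inv_pos.mpr (norm_pos_iff.mpr hz)
    have e1 := B.hom_bb i z hz _ hr
    have e2 := T.homb i z hz _ hr
    rw [zpow_zero, one_mul] at e1 e2
    rw [e1] at h
    rw [h]
    exact e2
  have hpd : ∀ k i, pd k (X3.bb C.H C.U f i) x = pd k (fun y => T.b y i) x := fun k i =>
    pd_congr' (fun z hz => hbb z hz i) hx0 k
  simp only [hpd] at h2
  have e1 : ∑ k, ∑ i, T.A x k i * X3.bb C.H C.U f k x * X3.bb C.H C.U f i x =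
      qf (T.A x) (T.b x) (T.b x) := by
    unfold qf
    simp only [hbb x hx0]
  have e2 : ∑ i, X3.bb C.H C.U f i x ^ 2 = ∑ i, T.b x i ^ 2 := by
    simp only [hbb x hx0]
  have e3 : ∀ R : ℝ, Λ * (1 - ∑ i, X3.Fv C.H C.U f i x ^ 2) / X3.tt C.H C.U f x ^ 2 + R =
      (1 - ∑ i, X3.Fv C.H C.U f i x ^ 2) / X3.tt C.H C.U f x ^ 2 * Λ + R := fun R => by ring
  rw [e3, zz_Y C hx] at h2
  rw [e1, e2] at h2
  have h4 : KSL.wS C l V x = V (pt (- C.U x) (Y C.H x (C.U x))) *
      l 0 (pt (- C.U x) (Y C.H x (C.U x))) ^ 2 * Λ * dts C.H (C.U x) x := by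
    unfold KSL.wS
    rw [← htr, ← hΛd]
    ring
  have htt : X3.tt C.H C.U f x = 1 + ∑ i, x i * pd i f (Y C.H x (C.U x)) := by
    rw [← zz_Y C hx]
    unfold tt X3.Fv
    simp only [nv_one hx]
  rw [e2] at h1
  rw [h1, h4, ← htt]
  unfold KSL.qT
  linear_combination (lapse (ksL l V) f (Y C.H x (C.U x)) * X3.tt C.H C.U f x) * h2

end Vale.Agent.P366.KSL
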