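import Vale.Agent.P366.H222.K.Area
import Vale.Agent.P366.H707.D.EqMix

/-! Equality for the area of the boundary surface. -/

open MeasureTheory Metric Filter Topology Set
open scoped ContDiff ENNReal

noncomputable section
namespace Vale.Agent.P366.KSD

open Vale.Agent.P366 (pd E flux)
open Vale.Agent.P366.H353.N
open Vale.Agent.P366.Kerr (NullCone Psi pt sp indG indK sgn ksL ksG ein nul IsKS FutTimelike DECatL
  IsGraph IsSliceL HasDEC MixDEC IsFut IsGradient schw IsSchwSlice)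
open Vale.Agent.P366.KSN (Y dts sg OO)
open Vale.Agent.P366.KSL

variable {n : ℕ} {C : NullCone n} {l : Fin (n + 1) → E (n + 1) → ℝ} {V : E (n + 1) → ℝ}
  {f lam : E n → ℝ} {D : Stmt.Exterior n} {x y : E n} {ξ : Fin (n + 1) → ℝ}

/-- `V l₀² = 1` on a round surface in a level set of the time function. -/
theorem bdr_one [Fact (3 ≤ n)] {T : Ten n} (hTA : T.A = C.toDat.A) (hTb : T.b = C.toDat.b)
    {u : ℝ} (hu' : ∀ x, x ≠ 0 → C.U x = u) (h2 : ∀ x : E n, ‖x‖ = 1 → qT T x = wS C l V x) :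
    ∃ u : ℝ, 0 < u ∧ (∀ x, x ≠ 0 → C.U x = u) ∧ ∀ x : E n, ‖x‖ = 1 →
      V (pt (- C.U x) (Y C.H x (C.U x))) * l 0 (pt (- C.U x) (Y C.H x (C.U x))) ^ 2 = 1 := by
  have h3n := Fact.out (p := 3 ≤ n)
  obtain ⟨e, he⟩ : ∃ e : E n, ‖e‖ = 1 :=
    ⟨EuclideanSpace.single (⟨0, by omega⟩ : Fin n) 1, by simp⟩
  have hupos : 0 < u := by
    rw [← hu' e (ne_zero_of_one he)]
    exact C.pos e (ne_zero_of_one he)
  refine ⟨u, hupos, hu', fun x hx => ?_⟩
  have hb : ∀ y : E n, y ≠ 0 → ∀ i, T.b y i = 0 := by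
    intro y hy i
    rw [hTb]
    show ∑ j, (C.toDat.M y)⁻¹ i j * (‖y‖ * pd j C.U y) = 0
    have e1 : ∀ j, pd j C.U y = 0 := fun j => by
      rw [pd_congr' (f := fun _ => u) (fun z hz => hu' z hz) hy, Vale.Agent.P366.pd_const]
    simp only [e1, mul_zero, Finset.sum_const_zero]
  have hx0 := ne_zero_of_one hx
  have h5 := h2 x hx
  have e1 : ∀ i j, pd i (fun y => T.b y j) x = 0 := fun i j => by
    rw [pd_congr' (f := fun _ => 0) (fun z hz => hb z hz j) hx0, Vale.Agent.P366.pd_const]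
  have e2 : T.b x = 0 := funext fun i => hb x hx0 i
  have hq : qT T x = sg C.H (C.U x) x := by
    unfold qT
    simp only [e1, e2]
    have e3 : H353.N.tr (T.A x) = sg C.H (C.U x) x := by
      rw [hTA]
      exact H353.N.X3.tr_A C.toDat hx
    rw [e3]
    simp [qf]
  rw [hq] at h5
  have h6 := KSN.sg_pos C hx (le_refl (C.U x))
  unfold wS at h5
  have h7 : (V (pt (- C.U x) (Y C.H x (C.U x))) *
      l 0 (pt (- C.U x) (Y C.H x (C.U x))) ^ 2 - 1) * sg C.H (C.U x) x = 0 := by linarith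
  rcases mul_eq_zero.1 h7 with h | h
  · linarith
  · exact absurd h h6.ne'

/-- Equality with the Minkowski area of the surface, spacetime dominant energy condition. -/
theorem schwarz_le [Fact (3 ≤ n)] (hS : IsSliceL C l V f D) (hL : IsGradient C lam l f D)
    (hD : HasDEC C l V f f D) (hAF : D.IsAF) (hT : D.Trapped) {m : ℝ} {P : Fin n → ℝ}
    (hm : D.IsEnergy m) (hP : D.IsMomentum P)
    (hle : √(m ^ 2 - ∑ i, P i ^ 2) ≤
      1 / 2 * (SI C.toDat.dt / om n) ^ (((n : ℝ) - 2) / ((n : ℝ) - 1))) :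
    ∃ c r₀, IsSchwSlice c r₀ f D := by
  obtain ⟨T, hTA, hTb, -⟩ := toTen C.toDat
  obtain ⟨hlt, -⟩ := mass_M hS hD hAF hT hm hP
  obtain ⟨a, ha0, ha⟩ := mass_eq_le hlt hle
  obtain ⟨h1, h2, h3⟩ := KSL.frame_eq hS hD hAF hT hm hP hTA hTb a ha
  obtain ⟨r, hr, p, hp⟩ := Shell.bm_round C.toDat T hTA hTb (q := qT T) (fun x _ => rfl) a h3
  obtain ⟨k, c, hH⟩ := Shell.H_round C.toDat hp
  have hk : ∀ y, 0 ≤ D.F y → IsKSg l V (pt (f y) y) := fun y hy =>
    ksg_of_grad hL hy (hS.ks y hy)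
  have hxi : ∑ i : Fin n, xi a i.succ ^ 2 < xi a 0 ^ 2 := by
    simp only [xi, Fin.cons_succ, Fin.cons_zero]
    rw [Shell.e0_sq]
    linarith
  refine schwarz_of hS hL hAF hP hH (fun b y hy => ?_) fun hP0 => ?_
  · have hG := Gm_zero_slice hS hD (hk y hy) hy hxi (e0_pos a) (h1 y hy)
    rw [div_Z hS.toIsGraph hy (hk y hy) b]
    simp only [hG, mul_zero, Finset.sum_const_zero, sub_zero]
  · rw [ha0 hP0] at hp
    obtain ⟨u, hu⟩ := Shell.U_round C.toDat hp
    exact bdr_one hTA hTb hu h2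

end Vale.Agent.P366.KSD
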