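import Vale.Agent.P366.Kerr.DefsC
import Vale.Agent.P366.H208.M.Outer
import Vale.Agent.P366.H707.S.Smooth
import Vale.Agent.P366.H222.K.EqS

/-! Exteriors which coincide on an enclosing cut and at infinity: areas, energy and momentum. -/

open MeasureTheory Metric Filter Topology Set
open scoped ContDiff ENNReal

noncomputable section
namespace Vale.Agent.P366.KSR

open Vale.Agent.P366 (pd E flux sphI)
open Vale.Agent.P366.H353.N
open Vale.Agent.P366.Kerr (NullCone Psi pt sp indG indK sgn ksL ein con IsKS FutTimelike DECatL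
  IsGraph IsSliceL HasDEC IsGradient IsSchwSlice schw IsCut IsOuter)
open Vale.Agent.P366.KSN (Y dts sg exists_unit U_smul Y_eq dts_pos smU smH homH homU posU' sum_xx
  F_pos mem_Y Psi_eq)
open Vale.Agent.P366.KSL
open Vale.Agent.P366.KSD
open Vale.Agent.P366.H707.N (Par dW KM adj_alg det_alg)

variable {n : ℕ} {C : NullCone n} {l : Fin (n + 1) → E (n + 1) → ℝ} {V : E (n + 1) → ℝ}
  {f f₁ lam : E n → ℝ} {D D' X : Stmt.Exterior n} {p : E (n + 1)} {x y : E n}
  {ξ : Fin (n + 1) → ℝ}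

/-- The area of the boundary only depends on the metric on it. -/
theorem areaX_le [Fact (3 ≤ n)] (hS : IsSliceL C l V f D) (hF : X.F = D.F)
    (hg : ∀ y, D.F y = 0 → ∀ i j, X.g y i j = D.g y i j) :
    X.area X.F ≤ ENNReal.ofReal (SI (fun x => dts C.H (C.U x) x)) := by
  have hdt : ∀ x : E n, ‖x‖ = 1 → 0 ≤ dW C.H (C.U x) x := fun x hx => (dts_pos C hx le_rfl).le
  have hS2 : SI (fun x => dts C.H (C.U x) x) = SI fun x => dW C.H (C.U x) x := rfl
  rw [hS2]
  refine Vale.Agent.P366.H707.N.area_le X (smH C) (homH C) (smU C) (homU C)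
    (fun x hx => posU' C hx) hdt ?_ ?_ ?_ ?_ ?_
  · intro a ha b hb hab
    rw [Psi_eq C ha.1, Psi_eq C hb.1] at hab
    exact C.inj ha hb hab
  · intro y hy
    rw [hF] at hy
    obtain ⟨x, hx0, hx1, rfl⟩ := (hS.dom y).mp hy
    exact ⟨x, ⟨hx0, hx1⟩, Psi_eq C hx0⟩
  · intro x hx
    rw [Psi_eq C hx.1, hF]
    exact (hS.dom _).2 ⟨x, hx.1, hx.2, rfl⟩
  · intro z hz hF0
    rw [Psi_eq C hz.1, hF] at hF0
    obtain ⟨x, hx, hzx⟩ := exists_unit hz.1
    have hn : 0 < ‖z‖ := norm_pos_iff.mpr hz.1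
    have hUz : C.U z = C.U x := by rw [hzx, U_smul C (ne_zero_of_one hx) hn]
    by_contra hne
    have hlt : C.U x < ‖z‖ := by rw [← hUz]; exact lt_of_le_of_ne hz.2 hne
    have := F_pos hS.dom hx hlt
    rw [← Y_eq C hx hn, ← hzx] at this
    exact this.ne' hF0
  · intro z hz0 hUz
    obtain ⟨x, hx, hzx⟩ := exists_unit hz0
    have hn : 0 < ‖z‖ := norm_pos_iff.mpr hz0
    have hUx : C.U x = ‖z‖ := by rw [← hUz, hzx, U_smul C (ne_zero_of_one hx) hn]
    have hY : Vale.Agent.P366.H707.N.Psi C.H z = Y C.H x (C.U x) := by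
      rw [Psi_eq C hz0, hUx, ← Y_eq C hx hn, ← hzx]
    rw [hY, hF]
    have hzi : ∀ i, z i / ‖z‖ = x i := by
      intro i
      have : z i = ‖z‖ * x i := by
        conv_lhs => rw [hzx]
        simp
      rw [this]; field_simp
    simp only [hzi]
    have hY0 : D.F (Y C.H x (C.U x)) = 0 := by
      rw [← hY, Psi_eq C hz0]
      exact hS.bdF z hz0 hUz.symm
    set y0 := Y C.H x (C.U x) with hy0
    have hmat : Stmt.mat X.g y0 = Stmt.mat D.g y0 := by
      ext i j
      exact hg y0 hY0 i j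
    have hmem : 0 ≤ D.F y0 := mem_Y hS.dom hx le_rfl
    have hFd : DifferentiableAt ℝ D.F y0 := (D.dom.1.differentiable (by simp)) y0
    have hfd : DifferentiableAt ℝ f y0 := (hS.smf _ hmem).differentiableAt (by simp)
    have hpe : ∀ i, Stmt.pd i D.F y0 = pd i D.F y0 := Vale.Agent.P366.Bridge.pd_eq hFd
    simp only [hpe]
    have hτ := tau_ne hS hx
    rw [← hy0] at hτ
    have hco : ∑ i, pd i D.F y0 * x i = ∑ i, x i * pd i D.F y0 :=
      Finset.sum_congr rfl fun i _ => mul_comm _ _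
    rw [hco]
    refine ⟨bdr_dF_pos hS.dom hS.bdF hS.bdr hfd hτ hx, le_of_eq ?_⟩
    unfold Vale.Agent.P366.H707.adjq
    simp only [hpe]
    rw [hmat, hy0, mat_bdr hS hx, ← hy0]
    set a := ∑ j, x j * pd j D.F y0 with ha
    set v := V (pt (- C.U x) y0) * l 0 (pt (- C.U x) y0) ^ 2 with hv
    have hgr : ∀ i, pd i D.F y0 = a / (1 + ∑ j, x j * pd j f y0) * (pd i f y0 + x i) := by
      intro i
      have h := bdr_grad hS.bdF hS.bdr hfd hx i
      rw [← hy0, ← ha] at h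
      rw [div_mul_eq_mul_div, eq_div_iff hτ]
      linarith only [h]
    have hx2 : ∑ i, x i ^ 2 = 1 := by
      rw [← sum_xx hx]
      exact Finset.sum_congr rfl fun i _ => by ring
    have hdet := det_bdr hS hx
    rw [← hy0, ← hv] at hdet
    have h3 := adj_alg (l := fun i => x i) (g := fun i => pd i f y0) (v := v) hx2 hdet.ne'
    set A := (KM (fun i => x i) (fun i => pd i f y0) v).adjugate with hA
    have h5 : ∑ i, ∑ j, A i j * pd i D.F y0 * pd j D.F y0 =
        (a / (1 + ∑ j, x j * pd j f y0)) ^ 2 *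
        ∑ i, ∑ j, A i j * (pd i f y0 + x i) * (pd j f y0 + x j) := by
      rw [Finset.mul_sum]
      refine Finset.sum_congr rfl fun i _ => ?_
      rw [Finset.mul_sum]
      refine Finset.sum_congr rfl fun j _ => ?_
      rw [hgr i, hgr j]; ring
    rw [h5, h3]
    field_simp

/-- the exterior with the domain of `D'` and the fields of `D` -/
def cutX (h : IsCut D' D) : Stmt.Exterior n where
  F := D'.F
  g := D.g
  K := D.K
  dom := D'.dom
  bdry := D'.bdry
  smooth := D.smooth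
  symm := D.symm
  pos := fun x hx => D.pos x (h.sub x hx)

theorem cut_Amin (h : IsCut D' D) : D.Amin ≤ D.area D'.F :=
  sInf_le ⟨D'.F, D'.dom, h.sub, rfl⟩

theorem cut_area [Fact (3 ≤ n)] {D₀ : Stmt.Exterior n} (hS : IsSliceL C l V f D₀)
    (hF : D₀.F = D'.F) (hg : D₀.g = D'.g) (h : IsCut D' D) :
    D.area D'.F ≤ ENNReal.ofReal (SI (fun x => dts C.H (C.U x) x)) := by
  refine le_trans (outer_area (D' := cutX h) (D := D) ⟨h.sub, rfl, rfl⟩ D'.F) ?_
  refine areaX_le (X := cutX h) hS hF.symm fun y hy i j => ?_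
  rw [hg]
  rw [hF] at hy
  exact (h.met y hy i j).symm

/-- the areas -/
theorem area_cut [Fact (3 ≤ n)] {D₀ : Stmt.Exterior n} (hS : IsSliceL C l V f D₀)
    (hF : D₀.F = D'.F) (hg : D₀.g = D'.g) (hO : IsCut D' D) :
    D.Amin ≤ D.area D'.F ∧ D.area D'.F ≠ ⊤ ∧
    0 < 1 / 2 * (SI C.toDat.dt / om n) ^ (((n : ℝ) - 2) / ((n : ℝ) - 1)) ∧
    (D.Amin.toReal / Stmt.omega n) ^ (((n : ℝ) - 2) / ((n : ℝ) - 1)) / 2 ≤
      ((D.area D'.F).toReal / Stmt.omega n) ^ (((n : ℝ) - 2) / ((n : ℝ) - 1)) / 2 ∧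
    ((D.area D'.F).toReal / Stmt.omega n) ^ (((n : ℝ) - 2) / ((n : ℝ) - 1)) / 2 ≤
      1 / 2 * (SI C.toDat.dt / om n) ^ (((n : ℝ) - 2) / ((n : ℝ) - 1)) := by
  have hn : (3 : ℝ) ≤ (n : ℝ) := by exact_mod_cast Fact.out (p := 3 ≤ n)
  have hom : 0 < om n := om_pos
  have hdt : SI C.toDat.dt = SI (fun x => dts C.H (C.U x) x) :=
    SI_congr fun x hx => X3.dt_one C.toDat hx
  have hA : 0 < SI C.toDat.dt := by
    rw [hdt]
    exact KSN.SI_pos (KSN.dts_cont C (KSN.smU C)) fun x hx => KSN.dts_pos C hx le_rfl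
  have h6 := cut_area hS hF hg hO
  rw [← hdt] at h6
  have htop : D.area D'.F ≠ ⊤ := ne_top_of_le_ne_top ENNReal.ofReal_ne_top h6
  have hle : (D.area D'.F).toReal ≤ SI C.toDat.dt := by
    have := (ENNReal.toReal_le_toReal htop ENNReal.ofReal_ne_top).2 h6
    rwa [ENNReal.toReal_ofReal hA.le] at this
  have hle0 : D.Amin.toReal ≤ (D.area D'.F).toReal :=
    (ENNReal.toReal_le_toReal (ne_top_of_le_ne_top htop (cut_Amin hO)) htop).2 (cut_Amin hO)
  have hmpos : 0 < 1 / 2 * (SI C.toDat.dt / om n) ^ (((n : ℝ) - 2) / ((n : ℝ) - 1)) := by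
    have : 0 < SI C.toDat.dt / om n := div_pos hA hom
    positivity
  have hexp : 0 ≤ ((n : ℝ) - 2) / ((n : ℝ) - 1) := div_nonneg (by linarith) (by linarith)
  rw [KSN.om_eq]
  have h4 : ((D.area D'.F).toReal / om n) ^ (((n : ℝ) - 2) / ((n : ℝ) - 1)) ≤
      (SI C.toDat.dt / om n) ^ (((n : ℝ) - 2) / ((n : ℝ) - 1)) :=
    Real.rpow_le_rpow (div_nonneg ENNReal.toReal_nonneg hom.le)
      (div_le_div_of_nonneg_right hle hom.le) hexp
  have h5 : (D.Amin.toReal / om n) ^ (((n : ℝ) - 2) / ((n : ℝ) - 1)) ≤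
      ((D.area D'.F).toReal / om n) ^ (((n : ℝ) - 2) / ((n : ℝ) - 1)) :=
    Real.rpow_le_rpow (div_nonneg ENNReal.toReal_nonneg hom.le)
      (div_le_div_of_nonneg_right hle0 hom.le) hexp
  exact ⟨cut_Amin hO, htop, hmpos, by linarith, by linarith⟩

/-! ### infinity -/

theorem bigO_congr {q R : ℝ} {u v : E n → ℝ} (h : ∀ y, R < Stmt.len y → u y = v y)
    (hv : Stmt.BigO q v) : Stmt.BigO q u := by
  obtain ⟨c, r, hc⟩ := hv
  refine ⟨c, max R r, fun x hx => ?_⟩
  rw [h x ((le_max_left _ _).trans_lt hx)]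
  exact hc x ((le_max_right _ _).trans_lt hx)

theorem pd_far {R : ℝ} {u v : E n → ℝ} (h : ∀ y, R < Stmt.len y → u y = v y) (k : Fin n) :
    ∀ y, R < Stmt.len y → Stmt.pd k u y = Stmt.pd k v y := by
  intro y hy
  have hev : u =ᶠ[𝓝 y] v := by
    have : ∀ᶠ z in 𝓝 y, R < ‖z‖ := continuous_norm.continuousAt.eventually
      (lt_mem_nhds (show R < ‖y‖ from hy))
    filter_upwards [this] with z hz using h z hz
  unfold Stmt.pd
  exact hev.lineDeriv_eq

theorem cut_AF (h : IsCut D' D) (hAF : D.IsAF) : D'.IsAF := by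
  obtain ⟨R, hR⟩ := h.far
  obtain ⟨q, hq, a⟩ := hAF
  have hg : ∀ i j, ∀ y, R < Stmt.len y → D'.g y i j = D.g y i j := fun i j y hy => (hR y hy i j).1
  have hK : ∀ i j, ∀ y, R < Stmt.len y → D'.K y i j = D.K y i j := fun i j y hy => (hR y hy i j).2
  refine ⟨q, hq, fun i j k l => ⟨?_, ?_, ?_, ?_, ?_⟩⟩
  · exact bigO_congr (fun y hy => by rw [hg i j y hy]) (a i j k l).1
  · exact bigO_congr (pd_far (hg i j) k) (a i j k l).2.1
  · exact bigO_congr (pd_far (pd_far (hg i j) k) l) (a i j k l).2.2.1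
  · exact bigO_congr (hK i j) (a i j k l).2.2.2.1
  · exact bigO_congr (pd_far (hK i j) k) (a i j k l).2.2.2.2

theorem cut_energy [Fact (3 ≤ n)] (h : IsCut D' D) {m : ℝ} (hm : D.IsEnergy m) :
    D'.IsEnergy m := by
  obtain ⟨R, hR⟩ := h.far
  exact KSS.energy_eq (R := R) (fun y hy i j => ((hR y hy i j).1).symm) hm

theorem flx_far {R : ℝ} {W W' : Fin n → E n → ℝ} (h : ∀ i y, R < Stmt.len y → W' i y = W i y)
    {r : ℝ} (hr : max R 0 < r) : Stmt.flx W' r = Stmt.flx W r := by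
  have hr0 : 0 < r := (le_max_right _ _).trans_lt hr
  have hrR : R < r := (le_max_left _ _).trans_lt hr
  unfold Stmt.flx Stmt.sphInt Stmt.sph
  congr 2
  refine integral_congr_ae (Filter.Eventually.of_forall fun θ => ?_)
  have h1 : Stmt.len (r • (θ : E n)) = r := by
    show ‖r • (θ : E n)‖ = r
    rw [norm_smul, Real.norm_eq_abs, abs_of_pos hr0, norm_eq_of_mem_sphere, mul_one]
  refine Finset.sum_congr rfl fun i _ => ?_
  rw [h i _ (by rw [h1]; exact hrR)]

theorem cut_momentum (h : IsCut D' D) {P : Fin n → ℝ} (hP : D.IsMomentum P) :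
    D'.IsMomentum P := by
  obtain ⟨R, hR⟩ := h.far
  intro i
  refine Tendsto.congr' ?_ (hP i)
  filter_upwards [eventually_gt_atTop (max R 0)] with r hr
  refine (flx_far (R := R) (fun j y hy => ?_) hr).symm
  have e1 : D'.g y = D.g y := by
    funext a b
    exact (hR y hy a b).1
  have e2 : D'.K y = D.K y := by
    funext a b
    exact (hR y hy a b).2
  unfold Stmt.momT Stmt.tr Stmt.up Stmt.mat
  rw [e1, e2]

theorem cut_refl (D : Stmt.Exterior n) : IsCut D D :=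
  ⟨fun _ h => h, fun _ _ _ _ => rfl, 0, fun _ _ _ _ => ⟨rfl, rfl⟩⟩

end Vale.Agent.P366.KSR
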