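import Vale.Agent.P366.H222.K.Cau
import Vale.Agent.P366.H222.L.EqC

/-! The area of the boundary surface, and equality for it. -/

open MeasureTheory Metric Filter Topology Set
open scoped ContDiff ENNReal

noncomputable section
namespace Vale.Agent.P366.KSD

open Vale.Agent.P366 (pd E flux sphI)
open Vale.Agent.P366.H353.N
open Vale.Agent.P366.Kerr (NullCone Psi pt sp indG indK sgn ksL ein con IsKS FutTimelike DECatL
  IsGraph IsSliceL HasDEC IsGradient IsSchwSlice schw)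
open Vale.Agent.P366.KSN (Y dts sg exists_unit U_smul Y_eq dts_pos smU smH homH homU posU' sum_xx F_pos mem_Y Psi_eq)
open Vale.Agent.P366.KSL
open Vale.Agent.P366.H707.N (Par dW KM adj_alg det_alg)

variable {n : ℕ} {C : NullCone n} {l : Fin (n + 1) → E (n + 1) → ℝ} {V : E (n + 1) → ℝ}
  {f f₁ lam : E n → ℝ} {D : Stmt.Exterior n} {p : E (n + 1)} {x y : E n} {ξ : Fin (n + 1) → ℝ}

theorem amin_le (D : Stmt.Exterior n) : D.Amin ≤ D.area D.F :=
  sInf_le ⟨D.F, D.dom, fun x hx => hx, rfl⟩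

/-- [V9] The area of the boundary. -/
theorem areaF_le [Fact (3 ≤ n)] (hS : IsSliceL C l V f D) :
    D.area D.F ≤ ENNReal.ofReal (SI (fun x => dts C.H (C.U x) x)) := by
  have hdt : ∀ x : E n, ‖x‖ = 1 → 0 ≤ dW C.H (C.U x) x := fun x hx => (dts_pos C hx le_rfl).le
  have hS2 : SI (fun x => dts C.H (C.U x) x) = SI fun x => dW C.H (C.U x) x := rfl
  rw [hS2]
  refine Vale.Agent.P366.H707.N.area_le D (smH C) (homH C) (smU C) (homU C)
    (fun x hx => posU' C hx) hdt ?_ ?_ ?_ ?_ ?_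
  · intro a ha b hb hab
    rw [Psi_eq C ha.1, Psi_eq C hb.1] at hab
    exact C.inj ha hb hab
  · intro y hy
    obtain ⟨x, hx0, hx1, rfl⟩ := (hS.dom y).mp hy
    exact ⟨x, ⟨hx0, hx1⟩, Psi_eq C hx0⟩
  · intro x hx
    rw [Psi_eq C hx.1]
    exact (hS.dom _).2 ⟨x, hx.1, hx.2, rfl⟩
  · intro z hz hF
    rw [Psi_eq C hz.1] at hF
    obtain ⟨x, hx, hzx⟩ := exists_unit hz.1
    have hn : 0 < ‖z‖ := norm_pos_iff.mpr hz.1
    have hUz : C.U z = C.U x := by rw [hzx, U_smul C (ne_zero_of_one hx) hn]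
    by_contra hne
    have hlt : C.U x < ‖z‖ := by rw [← hUz]; exact lt_of_le_of_ne hz.2 hne
    have := F_pos hS.dom hx hlt
    rw [← Y_eq C hx hn, ← hzx] at this
    exact this.ne' hF
  · intro z hz0 hUz
    obtain ⟨x, hx, hzx⟩ := exists_unit hz0
    have hn : 0 < ‖z‖ := norm_pos_iff.mpr hz0
    have hUx : C.U x = ‖z‖ := by rw [← hUz, hzx, U_smul C (ne_zero_of_one hx) hn]
    have hY : Vale.Agent.P366.H707.N.Psi C.H z = Y C.H x (C.U x) := by
      rw [Psi_eq C hz0, hUx, ← Y_eq C hx hn, ← hzx]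
    rw [hY]
    have hzi : ∀ i, z i / ‖z‖ = x i := by
      intro i
      have : z i = ‖z‖ * x i := by
        conv_lhs => rw [hzx]
        simp
      rw [this]; field_simp
    simp only [hzi]
    set y0 := Y C.H x (C.U x) with hy0
    have hmem : 0 ≤ D.F y0 := mem_Y hS.dom hx le_rfl
    have hFd : DifferentiableAt ℝ D.F y0 := (D.dom.1.differentiable (by simp)) y0
    have hfd : DifferentiableAt ℝ f y0 := (hS.smf _ hmem).differentiableAt (by simp)
    have hpe : ∀ i, Stmt.pd i D.F y0 = pd i D.F y0 := Vale.Agent.P366.Bridge.pd_eq hFd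
    simp only [hpe]
    have hτ := tau_ne hS hx
    rw [← hy0] at hτ
    have hco : ∑ i, pd i D.F y0 * x i = ∑ i, x i * pd i D.F y0 :=
      Finset.sum_congr rfl fun i _ => mul_comm _ _
    rw [hco]
    refine ⟨bdr_dF_pos hS.dom hS.bdF hS.bdr hfd hτ hx, le_of_eq ?_⟩
    unfold Vale.Agent.P366.H707.adjq
    simp only [hpe]
    rw [mat_bdr hS hx, ← hy0]
    set a := ∑ j, x j * pd j D.F y0 with ha
    set v := V (pt (- C.U x) y0) * l 0 (pt (- C.U x) y0) ^ 2 with hv
    have hgr : ∀ i, pd i D.F y0 = a / (1 + ∑ j, x j * pd j f y0) * (pd i f y0 + x i) := by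
      intro i
      have h := bdr_grad hS.bdF hS.bdr hfd hx i
      rw [← hy0, ← ha] at h
      rw [div_mul_eq_mul_div, eq_div_iff hτ]
      linarith only [h]
    have hx2 : ∑ i, x i ^ 2 = 1 := by
      rw [← sum_xx hx]
      exact Finset.sum_congr rfl fun i _ => by ring
    have hdet := det_bdr hS hx
    rw [← hy0, ← hv] at hdet
    have h3 := adj_alg (l := fun i => x i) (g := fun i => pd i f y0) (v := v) hx2 hdet.ne'
    set A := (KM (fun i => x i) (fun i => pd i f y0) v).adjugate with hA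
    have h5 : ∑ i, ∑ j, A i j * pd i D.F y0 * pd j D.F y0 =
        (a / (1 + ∑ j, x j * pd j f y0)) ^ 2 *
        ∑ i, ∑ j, A i j * (pd i f y0 + x i) * (pd j f y0 + x j) := by
      rw [Finset.mul_sum]
      refine Finset.sum_congr rfl fun i _ => ?_
      rw [Finset.mul_sum]
      refine Finset.sum_congr rfl fun j _ => ?_
      rw [hgr i, hgr j]; ring
    rw [h5, h3]
    field_simp


/-- the areas -/
theorem area_all' [Fact (3 ≤ n)] (hS : IsSliceL C l V f D) : D.Amin ≤ D.area D.F ∧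
    D.area D.F ≠ ⊤ ∧ 0 < 1 / 2 * (SI C.toDat.dt / om n) ^ (((n : ℝ) - 2) / ((n : ℝ) - 1)) ∧
    (D.Amin.toReal / Stmt.omega n) ^ (((n : ℝ) - 2) / ((n : ℝ) - 1)) ≤
      ((D.area D.F).toReal / Stmt.omega n) ^ (((n : ℝ) - 2) / ((n : ℝ) - 1)) ∧
    ((D.area D.F).toReal / Stmt.omega n) ^ (((n : ℝ) - 2) / ((n : ℝ) - 1)) / 2 ≤
      1 / 2 * (SI C.toDat.dt / om n) ^ (((n : ℝ) - 2) / ((n : ℝ) - 1)) := by
  have h3 := Fact.out (p := 3 ≤ n)
  have hn : (3 : ℝ) ≤ (n : ℝ) := by exact_mod_cast h3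
  have hom : 0 < om n := om_pos
  have hdt : SI C.toDat.dt = SI (fun x => dts C.H (C.U x) x) :=
    SI_congr fun x hx => X3.dt_one C.toDat hx
  have hA : 0 < SI C.toDat.dt := by
    rw [hdt]
    exact KSN.SI_pos (KSN.dts_cont C (KSN.smU C)) fun x hx => KSN.dts_pos C hx le_rfl
  have h6 := areaF_le hS
  rw [← hdt] at h6
  have htop : D.area D.F ≠ ⊤ := ne_top_of_le_ne_top ENNReal.ofReal_ne_top h6
  have hle : (D.area D.F).toReal ≤ SI C.toDat.dt := by
    have := (ENNReal.toReal_le_toReal htop ENNReal.ofReal_ne_top).2 h6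
    rwa [ENNReal.toReal_ofReal hA.le] at this
  have hle0 : D.Amin.toReal ≤ (D.area D.F).toReal :=
    (ENNReal.toReal_le_toReal (ne_top_of_le_ne_top htop (amin_le D)) htop).2 (amin_le D)
  have hmpos : 0 < 1 / 2 * (SI C.toDat.dt / om n) ^ (((n : ℝ) - 2) / ((n : ℝ) - 1)) := by
    have : 0 < SI C.toDat.dt / om n := div_pos hA hom
    positivity
  have hexp : 0 ≤ ((n : ℝ) - 2) / ((n : ℝ) - 1) := by
    have h5 : 0 < (n : ℝ) - 1 := by linarith
    exact div_nonneg (by linarith) h5.le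
  refine ⟨amin_le D, htop, hmpos, ?_, ?_⟩
  · rw [KSN.om_eq]
    exact Real.rpow_le_rpow (div_nonneg ENNReal.toReal_nonneg hom.le) (by gcongr) hexp
  · rw [KSN.om_eq]
    have h4 : ((D.area D.F).toReal / om n) ^ (((n : ℝ) - 2) / ((n : ℝ) - 1)) ≤
        (SI C.toDat.dt / om n) ^ (((n : ℝ) - 2) / ((n : ℝ) - 1)) :=
      Real.rpow_le_rpow (div_nonneg ENNReal.toReal_nonneg hom.le) (by gcongr) hexp
    linarith

/-- the mass, `|P| < m` and the bound with the Minkowski area -/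
theorem mass_M [Fact (3 ≤ n)] (hS : IsSliceL C l V f D) (hD : HasDEC C l V f f₁ D) (hAF : D.IsAF)
    (hT : D.Trapped) {m : ℝ} {P : Fin n → ℝ} (hm : D.IsEnergy m) (hP : D.IsMomentum P) :
    √(∑ i, P i ^ 2) < m ∧ 1 / 2 * (SI C.toDat.dt / om n) ^ (((n : ℝ) - 2) / ((n : ℝ) - 1)) ≤
        √(m ^ 2 - ∑ i, P i ^ 2) := by
  obtain ⟨-, -, hmpos, -⟩ := area_all' hS
  exact Shell.mass (m := 1 / 2 * (SI C.toDat.dt / om n) ^ (((n : ℝ) - 2) / ((n : ℝ) - 1)))
    (e := m) (p := P) hmpos (fun a => by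
      have h := frame hS hD hAF hT hm hP (fun i => - a i)
      have e1 : Shell.e0 (fun i => - a i) = Shell.e0 a := by
        unfold Shell.e0
        congr 2
        exact Finset.sum_congr rfl fun i _ => by ring
      have e2 : ∑ i, - a i * P i = - ∑ i, a i * P i := by
        rw [← Finset.sum_neg_distrib]
        exact Finset.sum_congr rfl fun i _ => by ring
      rw [e1, e2] at h
      linarith)

/-- The minimizing frame. -/
theorem mass_eq_le {m M : ℝ} {P : Fin n → ℝ} (hlt : √(∑ i, P i ^ 2) < m)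
    (hle : √(m ^ 2 - ∑ i, P i ^ 2) ≤ M) :
    ∃ a : Fin n → ℝ, (P = 0 → a = 0) ∧ Shell.e0 a * m + ∑ i, a i * P i ≤ M := by
  have hm0 : 0 < m := (Real.sqrt_nonneg _).trans_lt hlt
  have hQ : √(∑ i, P i ^ 2) ^ 2 = ∑ i, P i ^ 2 :=
    Real.sq_sqrt (Finset.sum_nonneg fun i _ => sq_nonneg _)
  have hpos : 0 < m ^ 2 - ∑ i, P i ^ 2 := by
    have := Real.sqrt_nonneg (∑ i, P i ^ 2)
    nlinarith
  set s := √(m ^ 2 - ∑ i, P i ^ 2) with hs
  have hs0 : 0 < s := Real.sqrt_pos.mpr hpos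
  have hss : s ^ 2 = m ^ 2 - ∑ i, P i ^ 2 := Real.sq_sqrt hpos.le
  refine ⟨fun i => - P i / s, fun h => ?_, ?_⟩
  · funext i
    rw [h]
    simp
  · have e1 : Shell.e0 (fun i => - P i / s) = m / s := by
      unfold Shell.e0
      rw [show 1 + ∑ i, (- P i / s) ^ 2 = (m / s) ^ 2 by
        have : ∑ i, (- P i / s) ^ 2 = (∑ i, P i ^ 2) / s ^ 2 := by
          rw [Finset.sum_div]
          exact Finset.sum_congr rfl fun i _ => by ring
        rw [this]
        field_simp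
        linarith]
      exact Real.sqrt_sq (div_nonneg hm0.le hs0.le)
    have e2 : ∑ i, - P i / s * P i = - (∑ i, P i ^ 2) / s := by
      rw [← Finset.sum_neg_distrib, Finset.sum_div]
      exact Finset.sum_congr rfl fun i _ => by ring
    have e3 : m / s * m + - (∑ i, P i ^ 2) / s = s := by
      field_simp
      linarith
    rw [e1, e2, e3]
    exact hle

end Vale.Agent.P366.KSD
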