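import Vale.Agent.P366.H707.L.Eq

/-! The inequality and the case of equality in one frame. -/

open MeasureTheory Metric Filter Topology Set
open scoped ContDiff ENNReal

noncomputable section
namespace Vale.Agent.P366.KSD

open Vale.Agent.P366 (pd E flux sphI)
open Vale.Agent.P366.H353.N
open Vale.Agent.P366.Kerr (NullCone Psi pt sp indG indK sgn ksL ein IsKS FutTimelike DECatL IsGraph
  IsSliceL HasDEC)
open Vale.Agent.P366.KSN (Y dts sg)
open Vale.Agent.P366.KSL

variable {n : ℕ} {C : NullCone n} {l : Fin (n + 1) → E (n + 1) → ℝ} {V : E (n + 1) → ℝ}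
  {f f₁ : E n → ℝ} {D : Stmt.Exterior n} {p : E (n + 1)} {x y : E n}

/-- The flux density of the frame `(e0 a, a)` is nonnegative on the hypersurface `t = f₁(y)`. -/
structure PosAt (C : NullCone n) (l : Fin (n + 1) → E (n + 1) → ℝ) (V : E (n + 1) → ℝ)
    (f f₁ : E n → ℝ) (D : Stmt.Exterior n) (a : Fin n → ℝ) : Prop
    extends IsGraph C l V f₁ D where
  far : ∃ R, ∀ y, R < Stmt.len y → f₁ y = f y
  geob : ∀ x : E n, ‖x‖ = 1 → V (pt (f₁ (Y C.H x (C.U x))) (Y C.H x (C.U x))) = 0 ∨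
    ∃ κ : ℝ, ∀ a, acc l a (pt (f₁ (Y C.H x (C.U x))) (Y C.H x (C.U x))) =
      κ * l a (pt (f₁ (Y C.H x (C.U x))) (Y C.H x (C.U x)))
  pos : ∀ y, 0 ≤ D.F y → 0 ≤ ∑ i, pd i (Fa l V f₁ a i) y

/-- The flux of the field of the vector `(e0 a, a)` at infinity. -/
theorem flux_Fa [Fact (3 ≤ n)] (hS : IsSliceL C l V f D) {a : Fin n → ℝ}
    (hD : PosAt C l V f f₁ D a) (hAF : D.IsAF)
    {m : ℝ} {P : Fin n → ℝ} (hm : D.IsEnergy m) (hP : D.IsMomentum P) :
    Tendsto (flux (Fa l V f₁ a)) atTop (𝓝 (((n : ℝ) - 1) * om n *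
      (Shell.e0 a * m + ∑ i, a i * P i))) := by
  have h4 := af4 hS hAF
  have h0 := H474.L.flux_zero hS h4 hm
  have hj := fun j => H474.L.flux_succ hS h4 hP j
  have hsum : Tendsto (fun r => -∑ b, xi a b * flux (Zf l V f b) r) atTop
      (𝓝 (-∑ b, xi a b * (Fin.cons (α := fun _ => ℝ) (-(((n : ℝ) - 1) * om n * m))
        (fun j => -(((n : ℝ) - 1) * om n * P j)) b : ℝ))) := by
    refine (tendsto_finsetSum _ fun b _ => ?_).neg
    refine Tendsto.const_mul _ ?_
    refine Fin.cases ?_ (fun j => ?_) b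
    · simpa only [Fin.cons_zero] using h0
    · simpa only [Fin.cons_succ] using hj j
  have elim : -∑ b, xi a b * (Fin.cons (α := fun _ => ℝ) (-(((n : ℝ) - 1) * om n * m))
        (fun j => -(((n : ℝ) - 1) * om n * P j)) b : ℝ) =
      ((n : ℝ) - 1) * om n * (Shell.e0 a * m + ∑ i, a i * P i) := by
    rw [Fin.sum_univ_succ]
    simp only [xi, Fin.cons_zero, Fin.cons_succ]
    have e2 : ∀ i : Fin n, a i * -(((n : ℝ) - 1) * om n * P i) =
        -(((n : ℝ) - 1) * om n) * (a i * P i) := fun i => by ring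
    simp only [e2, ← Finset.mul_sum]
    ring
  rw [elim] at hsum
  refine hsum.congr' ?_
  obtain ⟨R1, hR1⟩ := far_mem D
  obtain ⟨R2, hR2⟩ := hD.far
  filter_upwards [eventually_gt_atTop (max (max R1 R2) 0)] with r hr
  have hr0 : 0 < r := (le_max_right _ _).trans_lt hr
  have hrR : max R1 R2 < r := (le_max_left _ _).trans_lt hr
  have hrR1 : R1 < r := (le_max_left _ _).trans_lt hrR
  have hrR2 : R2 < r := (le_max_right _ _).trans_lt hrR
  rw [← flux_lin hr0 (xi a) (W := Zf l V f) fun b i y hy =>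
    (Z_smooth hS.toIsGraph (hR1 y (by rw [hy]; exact hrR1)) b i).continuousAt]
  refine H474.W.flux_congr hr0 fun i y hy => ?_
  show -∑ b, xi a b * Zf l V f b i y = -∑ b, xi a b * Zf l V f₁ b i y
  congr 1
  refine Finset.sum_congr rfl fun b _ => ?_
  congr 1
  refine Zf_congr ?_ b i
  have : ∀ᶠ z in 𝓝 y, R2 < ‖z‖ := continuous_norm.continuousAt.eventually
    (lt_mem_nhds (show R2 < ‖y‖ by rw [hy]; exact hrR2))
  filter_upwards [this] with z hz
  exact (hR2 z hz).symm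

/-- the boundary term -/
theorem Z_bdrP (hS : IsSliceL C l V f D) {a : Fin n → ℝ} (hD : PosAt C l V f f₁ D a)
    (hx : ‖x‖ = 1) (b : Fin (n + 1)) :
    dts C.H (C.U x) x * ∑ i, Zf l V f₁ b i (Y C.H x (C.U x)) * (x i - C.toDat.b x i) =
      -(1 / 2 * (V (pt (- C.U x) (Y C.H x (C.U x))) * l 0 (pt (- C.U x) (Y C.H x (C.U x))) ^ 2 *
        sg C.H (C.U x) x)) * lx x b := by
  have hy : 0 ≤ D.F (Y C.H x (C.U x)) := (dom_iff hS.dom).2 ⟨x, C.U x, hx, le_rfl, rfl⟩
  have hU := C.pos x (ne_zero_of_one hx)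
  have hfb : f₁ (Y C.H x (C.U x)) = - C.U x := by
    have h := hD.bdr (C.U x • x) (smul_ne_zero hU.ne' (ne_zero_of_one hx)) (by
      rw [KSN.U_smul C (ne_zero_of_one hx) hU, KSN.norm_smul_unit hx hU.le])
    rwa [KSN.Y_eq C hx hU, KSN.U_smul C (ne_zero_of_one hx) hU] at h
  have hK := hD.ks _ hy
  have hg := hD.geob x hx
  rw [hfb] at hK hg
  exact n_Z_bdr (hD.smf _ hy) hD.bdr hK hg hS.nor hx b

theorem bdr_Fa [Fact (3 ≤ n)] (hS : IsSliceL C l V f D) {a : Fin n → ℝ}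
    (hD : PosAt C l V f f₁ D a) :
    SI (fun x => dts C.H (C.U x) x *
      ∑ i, Fa l V f₁ a i (Y C.H x (C.U x)) * (x i - C.toDat.b x i)) =
      1 / 2 * SI (fun x => wS C l V x * (Shell.e0 a + ∑ i, a i * x i)) := by
  rw [← SI_cmul]
  refine SI_congr fun x hx => ?_
  have e1 : dts C.H (C.U x) x * ∑ i, Fa l V f₁ a i (Y C.H x (C.U x)) * (x i - C.toDat.b x i) =
      -∑ b, xi a b * (dts C.H (C.U x) x *
        ∑ i, Zf l V f₁ b i (Y C.H x (C.U x)) * (x i - C.toDat.b x i)) := by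
    simp only [Fa, Finset.mul_sum, Finset.sum_mul, neg_mul, mul_neg,
      Finset.sum_neg_distrib]
    rw [Finset.sum_comm]
    congr 1
    exact Finset.sum_congr rfl fun b _ => Finset.sum_congr rfl fun i _ => by ring
  rw [e1]
  simp only [Z_bdrP hS hD hx]
  rw [Fin.sum_univ_succ]
  simp only [xi, lx, Fin.cons_zero, Fin.cons_succ, wS]
  have e2 : ∀ i : Fin n, a i * (-(1 / 2 * (V (pt (- C.U x) (Y C.H x (C.U x))) *
      l 0 (pt (- C.U x) (Y C.H x (C.U x))) ^ 2 * sg C.H (C.U x) x)) * x i) =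
      -(1 / 2 * (V (pt (- C.U x) (Y C.H x (C.U x))) *
      l 0 (pt (- C.U x) (Y C.H x (C.U x))) ^ 2 * sg C.H (C.U x) x)) * (a i * x i) :=
    fun i => by ring
  simp only [e2, ← Finset.mul_sum]
  ring

/-- Equality in the frame of the vector `(e0 a, a)`. -/
theorem frame_eq [Fact (3 ≤ n)] (hS : IsSliceL C l V f D) {a : Fin n → ℝ}
    (hD : PosAt C l V f f₁ D a) (hAF : D.IsAF) (hT : D.Trapped) {m : ℝ} {P : Fin n → ℝ} (hm : D.IsEnergy m)
    (hP : D.IsMomentum P) {T : Ten n} (hTA : T.A = C.toDat.A) (hTb : T.b = C.toDat.b)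
    (heq : Shell.e0 a * m + ∑ i, a i * P i ≤
      1 / 2 * (SI C.toDat.dt / om n) ^ (((n : ℝ) - 2) / ((n : ℝ) - 1))) :
    (∀ y, 0 ≤ D.F y → ∑ b, xi a b * ∑ i, pd i (Zf l V f₁ b i) y = 0) ∧
    (∀ x : E n, ‖x‖ = 1 → qT T x = wS C l V x) ∧
    SI (fun x => qT T x * (Shell.e0 a + ∑ i, a i * x i)) =
      1 / 2 * (SI C.toDat.dt / om n) ^ (((n : ℝ) - 2) / ((n : ℝ) - 1)) *
        (2 * ((n : ℝ) - 1) * om n) := by
  have h3 := Fact.out (p := 3 ≤ n)
  have hn : (3 : ℝ) ≤ (n : ℝ) := by exact_mod_cast h3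
  have hom : 0 < om n := om_pos
  have hlim := flux_Fa hS hD hAF hm hP
  have hst := stokes (D := D) (C := C) hS.dom hS.bdF (F := Fa l V f₁ a)
    (fun i y hy => Fa_smooth hD.toIsGraph hy a i)
    hD.pos hlim
  rw [bdr_Fa hS hD] at hst
  have hqS : Sm (qT T) := qT_sm T
  have hwc := wS_cont hS
  have hqw : ∀ x : E n, ‖x‖ = 1 → qT T x ≤ wS C l V x := fun x hx => trapped hS hT hTA hTb hx
  have hax : ContinuousOn (fun x : E n => Shell.e0 a + ∑ i, a i * x i) (sphere (0 : E n) 1) :=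
    ((Sm.const (Shell.e0 a)).add (Sm.sum _ fun i => (Sm.const (a i)).mul (Sm.coord i))).contOn
  have h7 : SI (fun x => qT T x * (Shell.e0 a + ∑ i, a i * x i)) ≤
      SI (fun x => wS C l V x * (Shell.e0 a + ∑ i, a i * x i)) :=
    SI_mono (hqS.contOn.mul hax) (hwc.mul hax) fun x hx =>
      mul_le_mul_of_nonneg_right (hqw x hx) (ax_pos a hx).le
  have h8 : SI (fun x => qT T x * (Shell.e0 a + ∑ i, a i * x i)) =
      Shell.e0 a * SI (qT T) + ∑ i, a i * SI (fun x => qT T x * x i) := by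
    have e1 : ∀ x : E n, qT T x * (Shell.e0 a + ∑ i, a i * x i) =
        Shell.e0 a * qT T x + ∑ i, a i * (qT T x * x i) := by
      intro x
      rw [mul_add, Finset.mul_sum, mul_comm]
      congr 1
      exact Finset.sum_congr rfl fun i _ => by ring
    simp only [e1]
    have h9 : ∀ i, Sm fun x : E n => qT T x * x i := fun i => hqS.mul (Sm.coord i)
    rw [SI_add ((Sm.const (Shell.e0 a)).mul hqS).contOn
      (Sm.sum _ fun i => (Sm.const (a i)).mul (h9 i)).contOn, SI_cmul]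
    congr 1
    unfold SI
    rw [integral_finsetSum]
    · exact Finset.sum_congr rfl fun i _ => integral_const_mul _ _
    · intro i _
      exact (int_sph (h9 i).contOn).const_mul (a i)
  have h10 := Shell.shell_frame C.toDat T hTA hTb (q := qT T) (fun x _ => rfl) a
  have hc : 0 < 2 * ((n : ℝ) - 1) * om n := by
    have : 0 < (n : ℝ) - 1 := by linarith
    positivity
  rw [← h8, le_div_iff₀ hc] at h10
  set M := 1 / 2 * (SI C.toDat.dt / om n) ^ (((n : ℝ) - 2) / ((n : ℝ) - 1)) with hM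
  have h11 : ((n : ℝ) - 1) * om n * (Shell.e0 a * m + ∑ i, a i * P i) ≤
      1 / 2 * (M * (2 * ((n : ℝ) - 1) * om n)) := by
    have : 0 < ((n : ℝ) - 1) * om n := mul_pos (by linarith) hom
    have h := mul_le_mul_of_nonneg_left heq this.le
    linarith
  have h12 : SI (fun x => qT T x * (Shell.e0 a + ∑ i, a i * x i)) =
      M * (2 * ((n : ℝ) - 1) * om n) := by linarith
  have h13 : SI (fun x => wS C l V x * (Shell.e0 a + ∑ i, a i * x i)) =
      M * (2 * ((n : ℝ) - 1) * om n) := by linarith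
  refine ⟨?_, ?_, h12⟩
  · have h := stokes_zero (D := D) (C := C) hS.dom (F := Fa l V f₁ a)
      (fun i y hy => Fa_smooth hD.toIsGraph hy a i)
      hD.pos hlim
      (by rw [bdr_Fa hS hD, h13]; exact h11)
    intro y hy
    have h1 := h y hy
    rw [sum_pd_Fa hD.toIsGraph hy a] at h1
    linarith
  · have c1 : ContinuousOn (fun x : E n => wS C l V x * (Shell.e0 a + ∑ i, a i * x i))
        (sphere (0 : E n) 1) := hwc.mul hax
    have c2 : ContinuousOn (fun x : E n => qT T x * (Shell.e0 a + ∑ i, a i * x i))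
        (sphere (0 : E n) 1) := hqS.contOn.mul hax
    have c3 : ContinuousOn (fun x : E n => wS C l V x * (Shell.e0 a + ∑ i, a i * x i) -
        qT T x * (Shell.e0 a + ∑ i, a i * x i)) (sphere (0 : E n) 1) := c1.sub c2
    have h14 : SI (fun x => wS C l V x * (Shell.e0 a + ∑ i, a i * x i) -
        qT T x * (Shell.e0 a + ∑ i, a i * x i)) = 0 := by
      rw [SI_sub c1 c2, h12, h13, sub_self]
    have h15 := SI_eq_zero' c3 (fun x hx => by
      have := mul_le_mul_of_nonneg_right (hqw x hx) (ax_pos a hx).le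
      linarith) h14
    intro x hx
    have h16 := h15 x hx
    have h17 := ax_pos a hx
    have h18 : (wS C l V x - qT T x) * (Shell.e0 a + ∑ i, a i * x i) = 0 := by
      rw [sub_mul]
      exact h16
    rcases mul_eq_zero.1 h18 with h | h
    · linarith
    · exact absurd h h17.ne'

/-- The inequality in the frame `(e0 a, a)`. -/
theorem frame_pos [Fact (3 ≤ n)] (hS : IsSliceL C l V f D) {a : Fin n → ℝ}
    (hD : PosAt C l V f f₁ D a) (hAF : D.IsAF) (hT : D.Trapped) {m : ℝ} {P : Fin n → ℝ}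
    (hm : D.IsEnergy m) (hP : D.IsMomentum P) :
    1 / 2 * (SI C.toDat.dt / om n) ^ (((n : ℝ) - 2) / ((n : ℝ) - 1)) ≤
      Shell.e0 a * m + ∑ i, a i * P i := by
  by_contra hlt
  push Not at hlt
  obtain ⟨T, hTA, hTb, -⟩ := toTen C.toDat
  have h3 := Fact.out (p := 3 ≤ n)
  have hn : (3 : ℝ) ≤ (n : ℝ) := by exact_mod_cast h3
  have hom : 0 < om n := om_pos
  have hlim := flux_Fa hS hD hAF hm hP
  have hst := stokes (D := D) (C := C) hS.dom hS.bdF (F := Fa l V f₁ a)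
    (fun i y hy => Fa_smooth hD.toIsGraph hy a i) hD.pos hlim
  rw [bdr_Fa hS hD] at hst
  obtain ⟨-, -, h12⟩ := frame_eq hS hD hAF hT hm hP hTA hTb hlt.le
  have hax : ContinuousOn (fun x : E n => Shell.e0 a + ∑ i, a i * x i) (sphere (0 : E n) 1) :=
    ((Sm.const (Shell.e0 a)).add (Sm.sum _ fun i => (Sm.const (a i)).mul (Sm.coord i))).contOn
  have h7 : SI (fun x => qT T x * (Shell.e0 a + ∑ i, a i * x i)) ≤
      SI (fun x => wS C l V x * (Shell.e0 a + ∑ i, a i * x i)) :=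
    SI_mono ((qT_sm T).contOn.mul hax) ((wS_cont hS).mul hax) fun x hx =>
      mul_le_mul_of_nonneg_right (trapped hS hT hTA hTb hx) (ax_pos a hx).le
  rw [h12] at h7
  have hc : 0 < ((n : ℝ) - 1) * om n := mul_pos (by linarith) hom
  have h8 := mul_lt_mul_of_pos_left hlt hc
  linarith

end Vale.Agent.P366.KSD
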