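import Vale.Agent.P366.H208.M.Outer
import Vale.Agent.P366.H208.S.Eq0
import Vale.Agent.P366.H896.S.BD
import Vale.Agent.P366.H707.S.Eq
import Vale.Agent.P366.H222.K.EqS

/-! The Penrose inequality for the initial data with the metric of a Kerr-Schild hypersurface. -/

open MeasureTheory Metric Filter Topology Set
open scoped ContDiff ENNReal

noncomputable section
namespace Vale.Agent.P366.KSR

open Vale.Agent.P366 (pd E flux)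
open Vale.Agent.P366.H353.N
open Vale.Agent.P366.Kerr (NullCone Psi pt sp indG indK sgn ksL ksG ein nul IsKS FutTimelike DECatL
  IsGraph IsSliceL HasDEC MixDEC IsFut IsGradient schw IsSchwSlice SharpAt dif IsRef MixS IsOuter)
open Vale.Agent.P366.KSN (Y dts sg OO)
open Vale.Agent.P366.KSL
open Vale.Agent.P366.KSD

variable {n : ℕ} {C : NullCone n} {l : Fin (n + 1) → E (n + 1) → ℝ} {V : E (n + 1) → ℝ}
  {f f₁ lam : E n → ℝ} {D D₀ D₁ : Stmt.Exterior n} {x y : E n} {ξ : Fin (n + 1) → ℝ}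

theorem area_eq (hF : D₀.F = D.F) (hg : D₀.g = D.g) (G : Stmt.E n → ℝ) :
    D.area G = D₀.area G := by
  unfold Stmt.Exterior.area Stmt.Exterior.TestField
  rw [hF, hg]

/-- the areas -/
theorem area_ref [Fact (3 ≤ n)] (hS : IsSliceL C l V f D₀) (hF : D₀.F = D.F) (hg : D₀.g = D.g)
    (hO : IsOuter D D₁) : D₁.Amin ≤ D.area D.F ∧ D.area D.F ≠ ⊤ ∧
    0 < 1 / 2 * (SI C.toDat.dt / om n) ^ (((n : ℝ) - 2) / ((n : ℝ) - 1)) ∧
    (D₁.Amin.toReal / Stmt.omega n) ^ (((n : ℝ) - 2) / ((n : ℝ) - 1)) / 2 ≤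
      ((D.area D.F).toReal / Stmt.omega n) ^ (((n : ℝ) - 2) / ((n : ℝ) - 1)) / 2 ∧
    ((D.area D.F).toReal / Stmt.omega n) ^ (((n : ℝ) - 2) / ((n : ℝ) - 1)) / 2 ≤
      1 / 2 * (SI C.toDat.dt / om n) ^ (((n : ℝ) - 2) / ((n : ℝ) - 1)) := by
  obtain ⟨-, h2, h3, -, h5⟩ := area_all' hS
  have ha : D.area D.F = D₀.area D₀.F := by rw [hF]; exact area_eq hF hg D.F
  rw [ha]
  have h1 : D₁.Amin ≤ D₀.area D₀.F := by
    rw [← ha]
    exact (outer_Amin hO).trans (amin_le D)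
  refine ⟨h1, h2, h3, ?_, h5⟩
  have hle : D₁.Amin.toReal ≤ (D₀.area D₀.F).toReal :=
    (ENNReal.toReal_le_toReal (ne_top_of_le_ne_top h2 h1) h2).2 h1
  have hn : (3 : ℝ) ≤ (n : ℝ) := by exact_mod_cast Fact.out (p := 3 ≤ n)
  have hexp : 0 ≤ ((n : ℝ) - 2) / ((n : ℝ) - 1) := div_nonneg (by linarith) (by linarith)
  rw [KSN.om_eq]
  have h6 : (D₁.Amin.toReal / om n) ^ (((n : ℝ) - 2) / ((n : ℝ) - 1)) ≤
      ((D₀.area D₀.F).toReal / om n) ^ (((n : ℝ) - 2) / ((n : ℝ) - 1)) :=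
    Real.rpow_le_rpow (div_nonneg ENNReal.toReal_nonneg om_pos.le)
      (div_le_div_of_nonneg_right hle om_pos.le) hexp
  linarith

/-- The spacetime dominant energy condition on one hypersurface. -/
theorem st_main [Fact (3 ≤ n)] (hS : IsSliceL C l V f D) (hD : HasDEC C l V f f₁ D)
    (hAF : D.IsAF) (hT : D.Trapped) (hO : IsOuter D D₁) {m : ℝ} {P : Fin n → ℝ}
    (hm : D.IsEnergy m) (hP : D.IsMomentum P) :
    (D₁.Amin ≤ D.area D.F ∧ D.area D.F ≠ ⊤ ∧ √(∑ i, P i ^ 2) < m ∧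
      (D₁.Amin.toReal / Stmt.omega n) ^ (((n : ℝ) - 2) / ((n : ℝ) - 1)) / 2 ≤
        ((D.area D.F).toReal / Stmt.omega n) ^ (((n : ℝ) - 2) / ((n : ℝ) - 1)) / 2 ∧
      ((D.area D.F).toReal / Stmt.omega n) ^ (((n : ℝ) - 2) / ((n : ℝ) - 1)) / 2 ≤
        √(m ^ 2 - ∑ i, P i ^ 2)) ∧
    ∀ lam : E n → ℝ, IsGradient C lam l f D → HasDEC C l V f f D →
      ((D.area D.F).toReal / Stmt.omega n) ^ (((n : ℝ) - 2) / ((n : ℝ) - 1)) / 2 =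
        √(m ^ 2 - ∑ i, P i ^ 2) → ∃ c r₀, IsSchwSlice c r₀ f D := by
  obtain ⟨h1, h2, -, h4, h5⟩ := area_ref hS rfl rfl hO
  obtain ⟨h6, h7⟩ := mass_M hS hD hAF hT hm hP
  exact ⟨⟨h1, h2, h6, h4, h5.trans h7⟩, fun lam hL hD' heq =>
    schwarz_le hS hL hD' hAF hT hm hP (heq ▸ h5)⟩

/-- The Penrose inequality in the frame of `ξ`, and in the rest frame. -/
theorem ref_main [Fact (3 ≤ n)] (hS : IsSliceL C l V f D₀) (hξ : IsFut ξ)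
    (hR : IsRef l V f ξ D₀ D) (hD : MixS l V f ξ D) (hA₀ : D₀.IsAF) (hAF : D.IsAF)
    (hT : D.Trapped) (hO : IsOuter D D₁) {m : ℝ} {P : Fin n → ℝ}
    (hm : D.IsEnergy m) (hP : D.IsMomentum P) :
    (D₁.Amin ≤ D.area D.F ∧ D.area D.F ≠ ⊤ ∧
      (D₁.Amin.toReal / Stmt.omega n) ^ (((n : ℝ) - 2) / ((n : ℝ) - 1)) / 2 ≤
        ((D.area D.F).toReal / Stmt.omega n) ^ (((n : ℝ) - 2) / ((n : ℝ) - 1)) / 2 ∧
      ((D.area D.F).toReal / Stmt.omega n) ^ (((n : ℝ) - 2) / ((n : ℝ) - 1)) / 2 ≤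
        (ξ 0 * m + ∑ i : Fin n, ξ i.succ * P i) / √(ξ 0 ^ 2 - ∑ i : Fin n, ξ i.succ ^ 2)) ∧
    ((∀ i, ξ 0 * P i = -(ξ i.succ * m)) → √(∑ i, P i ^ 2) < m ∧
      ((D.area D.F).toReal / Stmt.omega n) ^ (((n : ℝ) - 2) / ((n : ℝ) - 1)) / 2 ≤
        √(m ^ 2 - ∑ i, P i ^ 2) ∧
      ∀ lam : E n → ℝ, IsGradient C lam l f D →
        ((D.area D.F).toReal / Stmt.omega n) ^ (((n : ℝ) - 2) / ((n : ℝ) - 1)) / 2 =
          √(m ^ 2 - ∑ i, P i ^ 2) → ∃ c r₀, IsSchwSlice c r₀ f D) := by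
  obtain ⟨h1, h2, h3, h4, h5⟩ := area_ref hS hR.dom hR.met hO
  have hpos := posB_of hS hA₀ hAF hξ hD hR hm hP (SH.bdB_of hξ hS hR hT)
  have h6 := frame_posB hS hpos
  rw [en_aa hξ.2 hξ.1] at h6
  have hN := NN_pos hξ.2
  have hp : 0 < ξ 0 * m + ∑ i, ξ i.succ * P i :=
    (div_pos_iff_of_pos_right hN).1 (h3.trans_le h6)
  refine ⟨⟨h1, h2, h4, h5.trans h6⟩, fun hr => ?_⟩
  obtain ⟨h7, h8⟩ := rest_frame hξ.2 hξ.1 hr hp
  refine ⟨h7, ?_, fun lam hL heq => ?_⟩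
  · rw [h8]
    exact h5.trans h6
  · have hle : √(m ^ 2 - ∑ i, P i ^ 2) ≤
        1 / 2 * (SI C.toDat.dt / om n) ^ (((n : ℝ) - 2) / ((n : ℝ) - 1)) := heq ▸ h5
    exact KSS.schwarz_ref hS hR hL hξ hD hAF hT hm hP hr hle
      (h0_of_frame hS hξ hD hR hpos hr hle)

end Vale.Agent.P366.KSR
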