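import Vale.Agent.P366.H222.K.Cut
import Vale.Agent.P366.H896.G.MainH

/-! The Penrose inequality for the exteriors which coincide with the data of a Kerr-Schild
hypersurface, or with data with the same metric, on an enclosing cut and at infinity. -/

open MeasureTheory Metric Filter Topology Set
open scoped ContDiff ENNReal

noncomputable section
namespace Vale.Agent.P366.KSR

open Vale.Agent.P366 (pd E flux)
open Vale.Agent.P366.H353.N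
open Vale.Agent.P366.Kerr (NullCone Psi pt sp indG indK sgn ksL ksG ein nul IsKS FutTimelike DECatL
  IsGraph IsSliceL HasDEC IsFut IsGradient schw IsSchwSlice IsCut IsRefH IsStrictH MixAt difM dif)
open Vale.Agent.P366.KSN (Y dts sg OO)
open Vale.Agent.P366.KSL
open Vale.Agent.P366.KSD

variable {n : ℕ} {C : NullCone n} {l : Fin (n + 1) → E (n + 1) → ℝ} {V : E (n + 1) → ℝ}
  {f f₁ lam : E n → ℝ} {D D' D₀ : Stmt.Exterior n} {x y : E n} {ξ : Fin (n + 1) → ℝ}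

/-- The spacetime dominant energy condition on one hypersurface. -/
theorem st_mainC [Fact (3 ≤ n)] (hS : IsSliceL C l V f D') (hD : HasDEC C l V f f₁ D')
    (hT : D'.Trapped) (hO : IsCut D' D) (hAF : D.IsAF) {m : ℝ} {P : Fin n → ℝ}
    (hm : D.IsEnergy m) (hP : D.IsMomentum P) :
    (D.Amin ≤ D.area D'.F ∧ D.area D'.F ≠ ⊤ ∧ √(∑ i, P i ^ 2) < m ∧
      (D.Amin.toReal / Stmt.omega n) ^ (((n : ℝ) - 2) / ((n : ℝ) - 1)) / 2 ≤
        ((D.area D'.F).toReal / Stmt.omega n) ^ (((n : ℝ) - 2) / ((n : ℝ) - 1)) / 2 ∧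
      ((D.area D'.F).toReal / Stmt.omega n) ^ (((n : ℝ) - 2) / ((n : ℝ) - 1)) / 2 ≤
        √(m ^ 2 - ∑ i, P i ^ 2)) ∧
    ∀ lam : E n → ℝ, IsGradient C lam l f D' → HasDEC C l V f f D' →
      ((D.area D'.F).toReal / Stmt.omega n) ^ (((n : ℝ) - 2) / ((n : ℝ) - 1)) / 2 =
        √(m ^ 2 - ∑ i, P i ^ 2) → ∃ c r₀, IsSchwSlice c r₀ f D' := by
  have hAF' := cut_AF hO hAF
  have hm' := cut_energy hO hm
  have hP' := cut_momentum hO hP
  obtain ⟨h1, h2, -, h4, h5⟩ := area_cut hS rfl rfl hO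
  obtain ⟨h6, h7⟩ := mass_M hS hD hAF' hT hm' hP'
  exact ⟨⟨h1, h2, h6, h4, h5.trans h7⟩, fun lam hL hD' heq =>
    schwarz_le hS hL hD' hAF' hT hm' hP' (heq ▸ h5)⟩

/-- The Penrose inequality in the frame of `ξ`, and in the rest frame. -/
theorem ref_mainC [Fact (3 ≤ n)] (hS : IsSliceL C l V f D₀) (hA₀ : D₀.IsAF) (hξ : IsFut ξ)
    (hR : IsRefH l V f ξ D₀ D') (hT : D'.Trapped) (hO : IsCut D' D) (hAF : D.IsAF)
    {m : ℝ} {P : Fin n → ℝ} (hm : D.IsEnergy m) (hP : D.IsMomentum P) :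
    (D.Amin ≤ D.area D'.F ∧ D.area D'.F ≠ ⊤ ∧
      (D.Amin.toReal / Stmt.omega n) ^ (((n : ℝ) - 2) / ((n : ℝ) - 1)) / 2 ≤
        ((D.area D'.F).toReal / Stmt.omega n) ^ (((n : ℝ) - 2) / ((n : ℝ) - 1)) / 2 ∧
      ((D.area D'.F).toReal / Stmt.omega n) ^ (((n : ℝ) - 2) / ((n : ℝ) - 1)) / 2 ≤
        (ξ 0 * m + ∑ i : Fin n, ξ i.succ * P i) / √(ξ 0 ^ 2 - ∑ i : Fin n, ξ i.succ ^ 2)) ∧
    ((∀ i, ξ 0 * P i = -(ξ i.succ * m)) → √(∑ i, P i ^ 2) < m ∧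
      ((D.area D'.F).toReal / Stmt.omega n) ^ (((n : ℝ) - 2) / ((n : ℝ) - 1)) / 2 ≤
        √(m ^ 2 - ∑ i, P i ^ 2) ∧
      ∀ lam : E n → ℝ, IsGradient C lam l f D' → IsStrictH l V f ξ D₀ D' →
        ((D.area D'.F).toReal / Stmt.omega n) ^ (((n : ℝ) - 2) / ((n : ℝ) - 1)) / 2 =
          √(m ^ 2 - ∑ i, P i ^ 2) → ∃ c r₀, IsSchwSlice c r₀ f D') := by
  have hAF' := cut_AF hO hAF
  have hm' := cut_energy hO hm
  have hP' := cut_momentum hO hP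
  obtain ⟨h1, h2, h3, h4, h5⟩ := area_cut hS hR.dom hR.met hO
  have hB := posB_ofH hS hA₀ hAF' hξ hR hm' hP'
    (fun T hA hb x hx => SH.bdB_ofH hξ hS hR T hA hb x hx)
  have h6 := frame_posB hS hB
  rw [en_aa hξ.2 hξ.1] at h6
  have hp : 0 < ξ 0 * m + ∑ i, ξ i.succ * P i :=
    (div_pos_iff_of_pos_right (NN_pos hξ.2)).1 (h3.trans_le h6)
  refine ⟨⟨h1, h2, h4, h5.trans h6⟩, fun hr => ?_⟩
  obtain ⟨h7, h8⟩ := rest_frame hξ.2 hξ.1 hr hp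
  refine ⟨h7, ?_, fun lam hL hX heq => ?_⟩
  · rw [h8]
    exact h5.trans h6
  · have hle : √(m ^ 2 - ∑ i, P i ^ 2) ≤
        1 / 2 * (SI C.toDat.dt / om n) ^ (((n : ℝ) - 2) / ((n : ℝ) - 1)) := heq ▸ h5
    have h0 := h0_of_frameH hS hξ hR hX hB hr hle
    exact KSS.schwarz_data_le (KSS.slice_of_eq hS hR.dom hR.met fun y hy => (h0 y hy).1) hL hξ
      hR.dec hR.geo (fun y hy => (h0 y hy).2) hAF' hT hm' hP' hr hle

end Vale.Agent.P366.KSR
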